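import Vale.Agent.P166F.Up.Base
import Vale.Agent.P166F.Haar.LogSum

/-!
P166: the perturbing field as a feature of the rotation, its derivative along rotations and its
change under a flip.
-/

namespace Vale.Agent.P166F.Dev

open MeasureTheory Matrix
open scoped RealInnerProductSpace
open Vale.Agent.P166 (spin)
open Vale.Agent.P166N.Spectrum (spins)

variable {K N P : ℕ}

/-- A coordinate of one block vector. -/
noncomputable def bco (blk : Fin N → Fin K) (U : Fin N → Fin N → ℝ) (σ : Fin N → Bool) (j : Fin K)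
    (c : Fin N) : ℝ :=
  if blk c = j then Orth.proj (spins σ) c U / Real.sqrt N else 0

lemma blockVec_apply (blk : Fin N → Fin K) (U : Fin N → Fin N → ℝ) (σ : Fin N → Bool) (j : Fin K)
    (c : Fin N) : blockVec blk U σ j c = bco blk U σ j c := rfl

lemma sum_spins_sq (σ : Fin N → Bool) : ∑ j, spins σ j ^ 2 = (N : ℝ) := by
  simp [spins, spin_sq]

lemma sum_bco_sq_le (blk : Fin N → Fin K) {U : Fin N → Fin N → ℝ} (hU : (of U)ᵀ * of U = 1)
    (σ : Fin N → Bool) (j : Fin K) : ∑ c, bco blk U σ j c ^ 2 ≤ 1 := by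
  have h := pow_le_one₀ (n := 2) (norm_nonneg _) (norm_blockVec_le blk hU σ j)
  rwa [EuclideanSpace.real_norm_sq_eq] at h

/-- The slots of a monomial. -/
abbrev Sl (e : Mon (Fin K) P) := (j : Fin K) × Fin (e.1 j : ℕ)

lemma card_sl_le (e : Mon (Fin K) P) : (Fintype.card (Sl e) : ℝ) ≤ K * P := by
  have : Fintype.card (Sl e) ≤ K * P := by
    simp only [Fintype.card_sigma, Fintype.card_fin]
    exact (Finset.sum_le_card_nsmul _ _ P fun j _ => Nat.lt_succ_iff.1 (e.1 j).2).trans_eq (by simp)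
  exact_mod_cast this

lemma sum_idx (e : Mon (Fin K) P) (f : Sl e → Fin N → ℝ) :
    ∑ i : (j : Fin K) → Fin (e.1 j : ℕ) → Fin N, ∏ sl : Sl e, f sl (i sl.1 sl.2) =
      ∏ sl : Sl e, ∑ c, f sl c := by
  simp only [Fintype.prod_sigma]
  calc ∑ i : (j : Fin K) → Fin (e.1 j : ℕ) → Fin N, ∏ j, ∏ t, f ⟨j, t⟩ (i j t)
      = ∏ j, ∑ u : Fin (e.1 j : ℕ) → Fin N, ∏ t, f ⟨j, t⟩ (u t) :=
        (Fintype.prod_sum fun j (u : Fin (e.1 j : ℕ) → Fin N) => ∏ t, f ⟨j, t⟩ (u t)).symm
    _ = _ := Finset.prod_congr rfl fun j _ => (Fintype.prod_sum fun t c => f ⟨j, t⟩ c).symm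

/-- The space of the perturbing fields. -/
abbrev GSp (K N P : ℕ) := EuclideanSpace ℝ (GIdx (Fin K) P N)

/-- The feature of the perturbing field. -/
noncomputable def feat (blk : Fin N → Fin K) (y : CIdx (Fin K) P → ℝ) (U : Fin N → Fin N → ℝ)
    (σ : Fin N → Bool) : GSp K N P :=
  WithLp.toLp 2 fun q => y (Sum.inl q.1) * ∏ sl : Sl q.1, bco blk U σ sl.1 (q.2 sl.1 sl.2)

/-- The product of all but one slot, with a prescribed factor in that slot. -/
noncomputable def slotProd (blk : Fin N → Fin K) (U : Fin N → Fin N → ℝ) (σ : Fin N → Bool)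
    (e : Mon (Fin K) P) (f : Sl e → Fin N → ℝ) (i : (j : Fin K) → Fin (e.1 j : ℕ) → Fin N)
    (sl : Sl e) : ℝ :=
  f sl (i sl.1 sl.2) * ∏ sl' ∈ Finset.univ.erase sl, bco blk U σ sl'.1 (i sl'.1 sl'.2)

lemma sum_slotProd_sq_le (blk : Fin N → Fin K) {U : Fin N → Fin N → ℝ} (hU : (of U)ᵀ * of U = 1)
    (σ : Fin N → Bool) (e : Mon (Fin K) P) (f : Sl e → Fin N → ℝ) (sl : Sl e) :
    ∑ i, slotProd blk U σ e f i sl ^ 2 ≤ ∑ c, f sl c ^ 2 := by
  classical
  set g : Sl e → Fin N → ℝ := fun sl' c => if sl' = sl then f sl c ^ 2 else bco blk U σ sl'.1 c ^ 2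
  have h : ∀ i, slotProd blk U σ e f i sl ^ 2 = ∏ sl', g sl' (i sl'.1 sl'.2) := fun i => by
    rw [← Finset.mul_prod_erase Finset.univ (fun sl' => g sl' (i sl'.1 sl'.2)) (Finset.mem_univ sl),
      slotProd, mul_pow, ← Finset.prod_pow]
    congr 1
    · simp [g]
    · exact Finset.prod_congr rfl fun sl' h => by simp [g, Finset.ne_of_mem_erase h]
  simp only [h, sum_idx]
  rw [← Finset.mul_prod_erase Finset.univ (fun sl' => ∑ c, g sl' c) (Finset.mem_univ sl)]
  simp only [g, if_true]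
  refine mul_le_of_le_one_right (Finset.sum_nonneg fun c _ => sq_nonneg _) ?_
  refine Finset.prod_le_one (fun sl' h => ?_) fun sl' h => ?_ <;>
    simp only [Finset.ne_of_mem_erase h, if_false]
  · exact Finset.sum_nonneg fun c _ => sq_nonneg _
  · exact sum_bco_sq_le blk hU σ sl'.1

/-- Squared norm of a vector made of one slot product per index. -/
lemma sum_slots_sq_le (blk : Fin N → Fin K) {U : Fin N → Fin N → ℝ} (hU : (of U)ᵀ * of U = 1)
    (σ : Fin N → Bool) (f : (e : Mon (Fin K) P) → Sl e → Fin N → ℝ) {S B : ℝ}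
    (y : CIdx (Fin K) P → ℝ) (hy : ∀ e : Mon (Fin K) P, y (Sum.inl e) ^ 2 ≤ S ^ 2)
    (hf : ∀ e sl, ∑ c, f e sl c ^ 2 ≤ B) {X : GSp K N P}
    (hX : ∀ q, |X q| ≤ |y (Sum.inl q.1)| * ∑ sl : Sl q.1, |slotProd blk U σ q.1 (f q.1) q.2 sl|) :
    ‖X‖ ^ 2 ≤ Fintype.card (CIdx (Fin K) P) * S ^ 2 * (K * P : ℝ) ^ 2 * B := by
  rw [EuclideanSpace.real_norm_sq_eq, Fintype.sum_sigma]
  have hB : ∀ e : Mon (Fin K) P, ∑ i, X ⟨e, i⟩ ^ 2 ≤ S ^ 2 * (K * P : ℝ) ^ 2 * B := fun e => by
    have hsl : Nonempty (Sl e) := by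
      rw [← Fintype.card_pos_iff, Fintype.card_sigma]
      simpa using e.2
    have hB0 : 0 ≤ B := (Finset.sum_nonneg fun c _ => sq_nonneg _).trans (hf e (Classical.arbitrary _))
    calc ∑ i, X ⟨e, i⟩ ^ 2
        ≤ ∑ i, y (Sum.inl e) ^ 2 * ((Fintype.card (Sl e) : ℝ) *
            ∑ sl, slotProd blk U σ e (f e) i sl ^ 2) := Finset.sum_le_sum fun i _ => by
          rw [← sq_abs (X _)]
          refine (pow_le_pow_left₀ (abs_nonneg _) (hX ⟨e, i⟩) 2).trans ?_
          rw [mul_pow, sq_abs]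
          refine mul_le_mul_of_nonneg_left ?_ (sq_nonneg _)
          refine (sq_sum_le_card_mul_sum_sq (s := Finset.univ)
            (f := fun sl => |slotProd blk U σ e (f e) i sl|)).trans_eq ?_
          simp [sq_abs, Fintype.card_sigma]
      _ = y (Sum.inl e) ^ 2 * ((Fintype.card (Sl e) : ℝ) *
            ∑ sl, ∑ i, slotProd blk U σ e (f e) i sl ^ 2) := by
          rw [← Finset.mul_sum, ← Finset.mul_sum, Finset.sum_comm]
      _ ≤ S ^ 2 * ((K * P : ℝ) * ((K * P : ℝ) * B)) := by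
          refine mul_le_mul (hy e) (mul_le_mul (card_sl_le e) ?_ ?_ (by positivity)) ?_ (sq_nonneg _)
          · refine ((Finset.sum_le_sum fun sl _ =>
              (sum_slotProd_sq_le blk hU σ e (f e) sl).trans (hf e sl)).trans_eq ?_).trans
              (mul_le_mul_of_nonneg_right (card_sl_le e) hB0)
            simp
          · exact Finset.sum_nonneg fun sl _ => Finset.sum_nonneg fun i _ => sq_nonneg _
          · exact mul_nonneg (Nat.cast_nonneg _)
              (Finset.sum_nonneg fun sl _ => Finset.sum_nonneg fun i _ => sq_nonneg _)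
      _ = _ := by ring
  rcases isEmpty_or_nonempty (Mon (Fin K) P) with hE | hE
  · simp only [Finset.univ_eq_empty, Finset.sum_empty]
    rcases Nat.eq_zero_or_pos (K * P) with h0 | h0
    · simp [show (K : ℝ) * P = 0 by exact_mod_cast h0]
    · exfalso
      have hK : 0 < K := Nat.pos_of_mul_pos_right h0
      have hP : 0 < P := Nat.pos_of_mul_pos_left h0
      exact hE.false ⟨fun _ => ⟨1, by omega⟩, by simp [Finset.sum_const, hK]⟩
  have h0 : 0 ≤ S ^ 2 * (K * P : ℝ) ^ 2 * B :=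
    (Finset.sum_nonneg fun i _ => sq_nonneg _).trans (hB (Classical.arbitrary _))
  refine ((Finset.sum_le_sum fun e _ => hB e).trans_eq ?_).trans
    (le_of_le_of_eq (mul_le_mul_of_nonneg_right (b := (Fintype.card (Mon (Fin K) P) : ℝ))
      (c := (Fintype.card (CIdx (Fin K) P) : ℝ)) ?_ h0) (by ring))
  · simp
  · simp [Fintype.card_sum]

lemma norm_feat_sq_le (blk : Fin N → Fin K) {U : Fin N → Fin N → ℝ} (hU : (of U)ᵀ * of U = 1)
    (σ : Fin N → Bool) {S : ℝ} (y : CIdx (Fin K) P → ℝ)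
    (hy : ∀ e : Mon (Fin K) P, y (Sum.inl e) ^ 2 ≤ S ^ 2) :
    ‖feat blk y U σ‖ ^ 2 ≤ Fintype.card (CIdx (Fin K) P) * S ^ 2 := by
  rw [EuclideanSpace.real_norm_sq_eq, Fintype.sum_sigma]
  have hB : ∀ e : Mon (Fin K) P, ∑ i, feat blk y U σ ⟨e, i⟩ ^ 2 ≤ S ^ 2 := fun e => by
    have e1 : ∀ i, feat blk y U σ ⟨e, i⟩ ^ 2 =
        y (Sum.inl e) ^ 2 * ∏ sl : Sl e, bco blk U σ sl.1 (i sl.1 sl.2) ^ 2 := fun i => by
      simp [feat, mul_pow, Finset.prod_pow]
    simp only [e1, ← Finset.mul_sum, sum_idx e fun sl c => bco blk U σ sl.1 c ^ 2]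
    exact (mul_le_of_le_one_right (sq_nonneg _) (Finset.prod_le_one
      (fun sl _ => Finset.sum_nonneg fun c _ => sq_nonneg _) fun sl _ => sum_bco_sq_le blk hU σ sl.1)).trans
      (hy e)
  refine ((Finset.sum_le_sum fun e _ => hB e).trans_eq ?_).trans
    (mul_le_mul_of_nonneg_right (b := (Fintype.card (Mon (Fin K) P) : ℝ)) ?_ (sq_nonneg S))
  · simp
  · simp [Fintype.card_sum]

/-- The transpose of the derivative of the feature. -/
noncomputable def gradVec (blk : Fin N → Fin K) (y : CIdx (Fin K) P → ℝ) (U : Fin N → Fin N → ℝ)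
    (σ : Fin N → Bool) (c : Fin N) : GSp K N P :=
  WithLp.toLp 2 fun q => y (Sum.inl q.1) * ∑ sl : Sl q.1,
    slotProd blk U σ q.1 (fun sl' c' => if c' = c then (if blk c' = sl'.1 then (Real.sqrt N)⁻¹ else 0)
      else 0) q.2 sl

lemma gradVec_bound (blk : Fin N → Fin K) {U : Fin N → Fin N → ℝ} (hU : (of U)ᵀ * of U = 1)
    (σ : Fin N → Bool) {S : ℝ} (y : CIdx (Fin K) P → ℝ)
    (hy : ∀ e : Mon (Fin K) P, y (Sum.inl e) ^ 2 ≤ S ^ 2) (h : Fin N → ℝ) :
    ‖∑ c, h c • gradVec blk y U σ c‖ ^ 2 ≤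
      Fintype.card (CIdx (Fin K) P) * S ^ 2 * (K * P : ℝ) ^ 2 / N * ∑ c, h c ^ 2 := by
  have h' := sum_slots_sq_le blk hU σ (S := S) (B := (∑ c, h c ^ 2) / N)
    (fun e sl c => h c * if blk c = sl.1 then (Real.sqrt N)⁻¹ else 0) y hy (fun e sl => ?_)
    (X := ∑ c, h c • gradVec blk y U σ c) fun q => ?_
  · exact h'.trans_eq (by ring)
  · rw [Finset.sum_div]
    refine Finset.sum_le_sum fun c _ => ?_
    split_ifs
    · rw [mul_pow, inv_pow, Real.sq_sqrt (Nat.cast_nonneg _), div_eq_mul_inv]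
    · simp only [mul_zero, ne_eq, OfNat.ofNat_ne_zero, not_false_eq_true, zero_pow]
      positivity
  · have e : (∑ c, h c • gradVec blk y U σ c) q = y (Sum.inl q.1) * ∑ sl : Sl q.1,
        slotProd blk U σ q.1 (fun sl c => h c * if blk c = sl.1 then (Real.sqrt N)⁻¹ else 0) q.2 sl := by
      simp only [WithLp.ofLp_sum, Finset.sum_apply, WithLp.ofLp_smul, Pi.smul_apply, smul_eq_mul,
        gradVec, Finset.mul_sum]
      rw [Finset.sum_comm]
      refine Finset.sum_congr rfl fun sl _ => ?_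
      simp only [slotProd, ite_mul, zero_mul, mul_ite, mul_zero, Finset.sum_ite_eq, Finset.mem_univ,
        if_true]
      ring_nf
    rw [e, abs_mul]
    exact mul_le_mul_of_nonneg_left (Finset.abs_sum_le_sum_abs _ _) (abs_nonneg _)

lemma contDiff_bco (blk : Fin N → Fin K) (σ : Fin N → Bool) (j : Fin K) (c : Fin N) :
    ContDiff ℝ 1 fun U => bco blk U σ j c := by
  unfold bco Orth.proj
  split_ifs <;> fun_prop

lemma contDiff_fld (blk : Fin N → Fin K) (y : CIdx (Fin K) P → ℝ) (g : GSp K N P) (σ : Fin N → Bool) :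
    ContDiff ℝ 1 fun U => ⟪g, feat blk y U σ⟫ := by
  simp only [PiLp.inner_apply, feat, RCLike.inner_apply, conj_trivial]
  exact ContDiff.sum fun q _ => ((contDiff_const.mul
    (contDiff_prod fun sl _ => contDiff_bco blk σ sl.1 _))).mul contDiff_const

/-- The derivative of the field along the rotation of two rows. -/
lemma dl_fld (blk : Fin N → Fin K) (y : CIdx (Fin K) P → ℝ) (g : GSp K N P) (σ : Fin N → Bool)
    (a b : Fin N) (U : Fin N → Fin N → ℝ) :
    Orth.dl (fun U => ⟪g, feat blk y U σ⟫) a b U =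
      ⟪g, gradVec blk y U σ b⟫ * Orth.proj (spins σ) a U -
        ⟪g, gradVec blk y U σ a⟫ * Orth.proj (spins σ) b U := by
  classical
  set V := Orth.mm (of.symm (Orth.pk a (Pi.single b 1))) U with hV
  set pa := Orth.proj (spins σ) a U with hpa
  set pb := Orth.proj (spins σ) b U with hpb
  have hlin : ∀ (j : Fin K) (c : Fin N), HasDerivAt (fun t : ℝ => bco blk (U + t • V) σ j c)
      ((if blk c = j then (Real.sqrt N)⁻¹ else 0) *
        ((if c = b then pa else 0) - if c = a then pb else 0)) 0 := fun j c => by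
    have e : ∀ t : ℝ, bco blk (U + t • V) σ j c = bco blk U σ j c +
        t * ((if blk c = j then (Real.sqrt N)⁻¹ else 0) * Orth.proj (spins σ) c V) := fun t => by
      have : Orth.proj (spins σ) c (U + t • V) =
          Orth.proj (spins σ) c U + t * Orth.proj (spins σ) c V := by
        simp only [Orth.proj, Pi.add_apply, Pi.smul_apply, smul_eq_mul, add_mul,
          Finset.sum_add_distrib, Finset.mul_sum, mul_assoc]
      simp only [bco, this]
      split_ifs <;> ring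
    simp only [e]
    rw [← Orth.proj_pk (spins σ) a b c U, ← hV]
    simpa using ((hasDerivAt_id (0 : ℝ)).mul_const
      ((if blk c = j then (Real.sqrt N)⁻¹ else 0) * Orth.proj (spins σ) c V)).const_add (bco blk U σ j c)
  have h1 : HasDerivAt (fun t : ℝ => ⟪g, feat blk y (U + t • V) σ⟫)
      (∑ q : GIdx (Fin K) P N, (y (Sum.inl q.1) * ∑ sl : Sl q.1,
        (∏ sl' ∈ Finset.univ.erase sl, bco blk U σ sl'.1 (q.2 sl'.1 sl'.2)) *
          ((if blk (q.2 sl.1 sl.2) = sl.1 then (Real.sqrt N)⁻¹ else 0) *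
            ((if q.2 sl.1 sl.2 = b then pa else 0) - if q.2 sl.1 sl.2 = a then pb else 0))) * g q) 0 := by
    simp only [PiLp.inner_apply, feat, RCLike.inner_apply, conj_trivial]
    refine HasDerivAt.fun_sum fun q _ => HasDerivAt.mul_const (HasDerivAt.const_mul _ ?_) _
    simpa [smul_eq_mul] using HasDerivAt.fun_finsetProd (u := (Finset.univ : Finset (Sl q.1)))
      fun sl _ => hlin sl.1 (q.2 sl.1 sl.2)
  have h2 : HasDerivAt (fun t : ℝ => U + t • V) V 0 := by
    simpa using ((hasDerivAt_id (0 : ℝ)).smul_const V).const_add U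
  have h3 := (((contDiff_fld blk y g σ).differentiable one_ne_zero) U).hasFDerivAt.comp_hasDerivAt_of_eq
    0 h2 (by simp)
  rw [Orth.dl, ← hV, h3.unique h1]
  simp only [PiLp.inner_apply, gradVec, RCLike.inner_apply, conj_trivial, Finset.sum_mul,
    ← Finset.sum_sub_distrib]
  refine Finset.sum_congr rfl fun q _ => ?_
  simp only [slotProd, Finset.mul_sum, Finset.sum_mul, ← Finset.sum_sub_distrib]
  refine Finset.sum_congr rfl fun sl _ => ?_
  split_ifs <;> ring

lemma sum_cross_sq_le (u p : Fin N → ℝ) :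
    ∑ a, ∑ b, (u b * p a - u a * p b) ^ 2 ≤ 4 * (∑ c, u c ^ 2) * ∑ c, p c ^ 2 := by
  calc ∑ a, ∑ b, (u b * p a - u a * p b) ^ 2
      ≤ ∑ a, ∑ b, (2 * (u b ^ 2 * p a ^ 2) + 2 * (u a ^ 2 * p b ^ 2)) :=
        Finset.sum_le_sum fun a _ => Finset.sum_le_sum fun b _ => by
          nlinarith [sq_nonneg (u b * p a + u a * p b)]
    _ = _ := by
        simp only [Finset.sum_add_distrib, ← Finset.mul_sum, ← Finset.sum_mul]
        ring

lemma sum_dl_fld_sq_le (blk : Fin N → Fin K) (y : CIdx (Fin K) P → ℝ) (g : GSp K N P)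
    (σ : Fin N → Bool) {U : Fin N → Fin N → ℝ} (hU : (of U)ᵀ * of U = 1) :
    ∑ a, ∑ b, Orth.dl (fun U => ⟪g, feat blk y U σ⟫) a b U ^ 2 ≤
      4 * N * ∑ c, ⟪g, gradVec blk y U σ c⟫ ^ 2 := by
  simp only [dl_fld]
  refine (sum_cross_sq_le _ _).trans_eq ?_
  rw [Orth.sum_proj_sq hU, sum_spins_sq]
  ring

/-- The change of the feature under the flip of one row. -/
noncomputable def flipVec (blk : Fin N → Fin K) (y : CIdx (Fin K) P → ℝ) (U : Fin N → Fin N → ℝ)
    (σ : Fin N → Bool) (c : Fin N) : GSp K N P :=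
  feat blk y U σ - feat blk y (Orth.mm (Orth.flip1 c) U) σ

lemma bco_flip (blk : Fin N → Fin K) (U : Fin N → Fin N → ℝ) (σ : Fin N → Bool) (j : Fin K)
    (c d : Fin N) :
    bco blk (Orth.mm (Orth.flip1 c) U) σ j d = (if d = c then -1 else 1) * bco blk U σ j d := by
  have h : Orth.proj (spins σ) d (Orth.mm (Orth.flip1 c) U) =
      (if d = c then -1 else 1) * Orth.proj (spins σ) d U := by
    simp only [Orth.proj, Orth.mm, Orth.flip1, Equiv.apply_symm_apply, of_symm_apply,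
      diagonal_mul, of_apply, Finset.mul_sum, mul_assoc]
  simp only [bco, h]
  split_ifs <;> ring

lemma flipVec_bound (blk : Fin N → Fin K) {U : Fin N → Fin N → ℝ} (hU : (of U)ᵀ * of U = 1)
    (σ : Fin N → Bool) {S : ℝ} (y : CIdx (Fin K) P → ℝ)
    (hy : ∀ e : Mon (Fin K) P, y (Sum.inl e) ^ 2 ≤ S ^ 2) (h : Fin N → ℝ) :
    ‖∑ c, h c • flipVec blk y U σ c‖ ^ 2 ≤
      Fintype.card (CIdx (Fin K) P) * S ^ 2 * (K * P : ℝ) ^ 2 * (4 * ∑ c, h c ^ 2) := by
  classical
  refine sum_slots_sq_le blk hU σ (S := S) (fun e sl c => 2 * h c * bco blk U σ sl.1 c) y hy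
    (fun e sl => ?_) fun q => ?_
  · rw [Finset.mul_sum]
    refine Finset.sum_le_sum fun c _ => ?_
    have : bco blk U σ sl.1 c ^ 2 ≤ 1 := (Finset.single_le_sum
      (f := fun c => bco blk U σ sl.1 c ^ 2) (fun _ _ => sq_nonneg _) (Finset.mem_univ c)).trans
        (sum_bco_sq_le blk hU σ sl.1)
    nlinarith [mul_le_mul_of_nonneg_left this (sq_nonneg (h c))]
  · set Q := ∏ sl : Sl q.1, bco blk U σ sl.1 (q.2 sl.1 sl.2) with hQ
    set η : Fin N → ℝ := fun c => 1 - ∏ sl : Sl q.1, if q.2 sl.1 sl.2 = c then -1 else 1 with hη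
    have e : (∑ c, h c • flipVec blk y U σ c) q = y (Sum.inl q.1) * ((∑ c, h c * η c) * Q) := by
      simp only [WithLp.ofLp_sum, Finset.sum_apply, WithLp.ofLp_smul, Pi.smul_apply, smul_eq_mul,
        flipVec, WithLp.ofLp_sub, Pi.sub_apply, feat, bco_flip, Finset.prod_mul_distrib, hη, hQ,
        Finset.sum_mul, Finset.mul_sum]
      exact Finset.sum_congr rfl fun c _ => by ring
    have hη' : ∀ c, |η c| ≤ 2 * ∑ sl : Sl q.1, if q.2 sl.1 sl.2 = c then (1 : ℝ) else 0 := fun c => by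
      by_cases hc : ∃ sl : Sl q.1, q.2 sl.1 sl.2 = c
      · obtain ⟨sl, hsl⟩ := hc
        have h1 : (1 : ℝ) ≤ ∑ sl : Sl q.1, if q.2 sl.1 sl.2 = c then (1 : ℝ) else 0 :=
          le_trans (by rw [if_pos hsl]) (Finset.single_le_sum
            (f := fun sl : Sl q.1 => if q.2 sl.1 sl.2 = c then (1 : ℝ) else 0)
            (fun _ _ => by split_ifs <;> norm_num) (Finset.mem_univ sl))
        have h2 : |∏ sl : Sl q.1, if q.2 sl.1 sl.2 = c then (-1 : ℝ) else 1| = 1 := by
          rw [Finset.abs_prod]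
          exact Finset.prod_eq_one fun sl _ => by split_ifs <;> simp
        calc |η c| ≤ |(1 : ℝ)| + |∏ sl : Sl q.1, if q.2 sl.1 sl.2 = c then (-1 : ℝ) else 1| := abs_sub _ _
          _ ≤ _ := by rw [h2, abs_one]; linarith
      · push Not at hc
        simp [hη, hc]
    have hsum : |∑ c, h c * η c| ≤ 2 * ∑ sl : Sl q.1, |h (q.2 sl.1 sl.2)| := by
      refine (Finset.abs_sum_le_sum_abs _ _).trans ?_
      refine (Finset.sum_le_sum (g := fun c => |h c| *
        (2 * ∑ sl : Sl q.1, if q.2 sl.1 sl.2 = c then (1 : ℝ) else 0)) fun c _ => ?_).trans_eq ?_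
      · rw [abs_mul]
        exact mul_le_mul_of_nonneg_left (hη' c) (abs_nonneg _)
      · simp only [Finset.mul_sum, mul_ite, mul_one, mul_zero]
        rw [Finset.sum_comm]
        simp [mul_comm]
    rw [e, abs_mul, abs_mul (∑ c, h c * η c)]
    refine mul_le_mul_of_nonneg_left ((mul_le_mul_of_nonneg_right hsum (abs_nonneg Q)).trans_eq ?_)
      (abs_nonneg _)
    rw [Finset.mul_sum, Finset.sum_mul]
    refine Finset.sum_congr rfl fun sl _ => ?_
    simp only [slotProd]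
    rw [hQ, ← Finset.mul_prod_erase Finset.univ
      (fun sl : Sl q.1 => bco blk U σ sl.1 (q.2 sl.1 sl.2)) (Finset.mem_univ sl)]
    simp only [abs_mul, abs_two]
    ring

/-- The weights of the quadratic part. -/
noncomputable def qwt (a : Atoms K) (blk : Fin N → Fin K) (t s : ℝ) (y : CIdx (Fin K) P → ℝ)
    (c : Fin N) : ℝ :=
  t * a.lam (blk c) + 2 * s * y (Sum.inr (blk c)) / N

/-- The rotation dependent exponent of a configuration. -/
noncomputable def expo (a : Atoms K) (blk : Fin N → Fin K) (t s : ℝ) (y : CIdx (Fin K) P → ℝ)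
    (g : GSp K N P) (σ : Fin N → Bool) (U : Fin N → Fin N → ℝ) : ℝ :=
  Orth.quad 1 (qwt a blk t s y) (spins σ) U + ⟪g, feat blk y U σ⟫

lemma sum_blocks (blk : Fin N → Fin K) (U : Fin N → Fin N → ℝ) (σ : Fin N → Bool) (w : Fin K → ℝ) :
    ∑ i, w i * ‖blockVec blk U σ i‖ ^ 2 =
      ∑ c, w (blk c) * (Orth.proj (spins σ) c U ^ 2 / N) := by
  simp only [EuclideanSpace.real_norm_sq_eq, blockVec_apply, Finset.mul_sum]
  rw [Finset.sum_comm]
  refine Finset.sum_congr rfl fun c _ => ?_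
  rw [Finset.sum_eq_single (blk c) (fun i _ hi => by simp [bco, Ne.symm hi]) (by simp)]
  simp [bco, div_pow, Real.sq_sqrt]

/-- On orthogonal matrices the exponent of the system is `expo`. -/
lemma expo_eq (a : Atoms K) (blk : Fin N → Fin K) {ν : Measure (Fin N → Fin N → ℝ)}
    (hν : Vale.Agent.P166N.Spectrum.OrthInvLaw N ν) {n k : ℕ} (hn : 1 ≤ n) (t : ℝ)
    (m r : Fin (k + 1) → ℝ) (s : ℝ) (y : CIdx (Fin K) P → ℝ) (ω : UOmega N n k)
    (hU : (of ω.1)ᵀ * of ω.1 = 1) (g : GSp K N P) (x : (Fin N → Bool) × Vale.Agent.P166N.Leaf n k) :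
    t * N / 2 * ∑ i, a.lam i * ‖blockVec blk ω.1 x.1 i‖ ^ 2 +
        (uSys a blk hν hn t m r).ham s y ω g x = expo a blk t s y g x.1 ω.1 := by
  have hh : (uSys a blk hν hn t m r).ham s y ω g x =
      ⟪g, feat blk y ω.1 x.1⟫ + s * ∑ j, y (Sum.inr j) * ‖blockVec blk ω.1 x.1 j‖ ^ 2 := by
    show (∑ e, y (Sum.inl e) * ∑ i : (j : Fin K) → Fin (e.1 j : ℕ) → Fin N,
        g ⟨e, i⟩ * ∏ j, ∏ u, toBall (blockVec blk ω.1 x.1 j) (i j u)) +
      s * ∑ j, y (Sum.inr j) * ‖toBall (blockVec blk ω.1 x.1 j)‖ ^ 2 = _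
    simp only [fun j => toBall_of_le (norm_blockVec_le blk hU x.1 j), blockVec_apply]
    congr 1
    simp only [PiLp.inner_apply, feat, RCLike.inner_apply, conj_trivial, Fintype.sum_sigma,
      Fintype.prod_sigma, Finset.mul_sum]
    exact Finset.sum_congr rfl fun e _ => Finset.sum_congr rfl fun i _ => by ring
  rw [hh]
  rcases Nat.eq_zero_or_pos N with rfl | hN
  · simp [expo, Orth.quad, EuclideanSpace.norm_eq]
  rw [sum_blocks, sum_blocks, expo, Orth.quad]
  have : (N : ℝ) ≠ 0 := by positivity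
  simp only [Finset.mul_sum, qwt]
  rw [← add_assoc, add_comm (∑ _, _) (⟪g, _⟫), add_comm _ (⟪g, _⟫), add_assoc,
    ← Finset.sum_add_distrib]
  congr 1
  exact Finset.sum_congr rfl fun c _ => by field_simp

end Vale.Agent.P166F.Dev
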