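import Vale.Agent.P157.Low.GGBase
import Vale.Agent.P166F.Haar.LogSum

/-!
P166: Gaussian tools for the deviation of the enriched system: deviation of a log-sum in a Gaussian
field, and the largest of finitely many quadratic forms of a Gaussian vector.
-/

namespace Vale.Agent.P166F.Dev

open MeasureTheory ProbabilityTheory
open scoped RealInnerProductSpace
open Vale.Agent.P157.Low (lz integral_exp_inner integrable_exp_norm variance_field integrable_lz)

variable {E : Type} [NormedAddCommGroup E] [InnerProductSpace ℝ E] [FiniteDimensional ℝ E]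
  [MeasurableSpace E] [BorelSpace E]

lemma integrable_exp_inner (u : E) :
    Integrable (fun g : E => Real.exp ⟪g, u⟫) (stdGaussian E) := by
  refine (integrable_exp_norm (E := E) ‖u‖).mono' (by fun_prop)
    (Filter.Eventually.of_forall fun g => ?_)
  rw [Real.norm_eq_abs, Real.abs_exp, Real.exp_le_exp, mul_comm]
  exact real_inner_le_norm g u

lemma lintegral_exp_inner (u : E) :
    ∫⁻ g, ENNReal.ofReal (Real.exp ⟪g, u⟫) ∂stdGaussian E =
      ENNReal.ofReal (Real.exp (‖u‖ ^ 2 / 2)) := by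
  rw [← integral_exp_inner u, ofReal_integral_eq_lintegral_ofReal (integrable_exp_inner u)
    (Filter.Eventually.of_forall fun g => (Real.exp_pos _).le)]

/-- Mean absolute deviation of a log-sum in a Gaussian field. -/
lemma gauss_lse_mad {X : Type} [Fintype X] [Nonempty X] (b : X → ℝ) (W : X → E) {l : ℝ}
    (hl : ∀ x, ‖W x‖ ≤ l) :
    Integrable (fun h => Real.log (∑ x, Real.exp (b x + ⟪h, W x⟫))) (stdGaussian E) ∧
      ∫ h, |Real.log (∑ x, Real.exp (b x + ⟪h, W x⟫)) -
          ∫ h', Real.log (∑ x, Real.exp (b x + ⟪h', W x⟫)) ∂stdGaussian E| ∂stdGaussian E ≤ 3 * l := by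
  let _ : MeasurableSpace X := ⊤
  have hl0 : 0 ≤ l := (norm_nonneg _).trans (hl (Classical.arbitrary X))
  set μ := (PMF.uniformOfFintype X).toMeasure with hμ
  have hw : Vale.Agent.P157.Wt fun x => Real.exp (b x) :=
    Vale.Agent.P157.Wt.exp (measurable_of_finite _) (β := ∑ x, |b x|) fun x =>
      Finset.single_le_sum (f := fun x => |b x|) (fun _ _ => abs_nonneg _) (Finset.mem_univ x)
  have e : (fun h => Real.log (∑ x, Real.exp (b x + ⟪h, W x⟫))) =
      fun h => lz μ W (fun x => Real.exp (b x)) h + Real.log (Fintype.card X) := by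
    funext h
    have hc : (0 : ℝ) < Fintype.card X := by exact_mod_cast Fintype.card_pos
    have hp : 0 < ∑ x, Real.exp (b x + ⟪h, W x⟫) :=
      Finset.sum_pos (fun x _ => Real.exp_pos _) Finset.univ_nonempty
    simp only [Vale.Agent.P157.Low.lz, Vale.Agent.P157.logI, hμ, PMF.integral_eq_sum,
      PMF.uniformOfFintype_apply, smul_eq_mul, ← Finset.mul_sum, ← Real.exp_add, ENNReal.toReal_inv,
      ENNReal.toReal_natCast]
    rw [Real.log_mul (inv_ne_zero hc.ne') hp.ne', Real.log_inv]
    ring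
  obtain ⟨i1, i2⟩ := integrable_lz (μ := μ) hw (measurable_of_finite W) hl 1
  simp only [one_smul] at i1 i2
  have hv := variance_field (μ := μ) hw (measurable_of_finite W) hl
  refine ⟨e ▸ i1.add (integrable_const _), ?_⟩
  simp only [congrFun e]
  rw [integral_add i1 (integrable_const _)]
  simp only [integral_const, probReal_univ, one_smul, add_sub_add_right_eq_sub]
  set m := ∫ h', lz μ W (fun x => Real.exp (b x)) h' ∂stdGaussian E
  have h2 : Integrable (fun h => (lz μ W (fun x => Real.exp (b x)) h - m) ^ 2) (stdGaussian E) := by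
    refine ((i2.sub (i1.const_mul (2 * m))).add (integrable_const (m ^ 2))).congr
      (Filter.Eventually.of_forall fun h => ?_)
    simp only [Pi.add_apply, Pi.sub_apply]
    ring
  refine (Orth.mad_le_sqrt (i1.sub (integrable_const m)) h2 hv).trans ?_
  rw [Real.sqrt_le_iff]
  exact ⟨by positivity, by nlinarith [sq_nonneg l]⟩

lemma lintegral_exp_sq (N : ℕ) :
    ∫⁻ h, ENNReal.ofReal (Real.exp (‖h‖ ^ 2 / 4)) ∂stdGaussian (EuclideanSpace ℝ (Fin N)) =
      ENNReal.ofReal (Real.sqrt 2 ^ N) := by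
  have h1 : Integrable (fun x : ℝ => Real.exp (x ^ 2 / 4)) (gaussianReal 0 1) ∧
      ∫ x, Real.exp (x ^ 2 / 4) ∂gaussianReal 0 1 = Real.sqrt 2 := by
    have e : ∀ x : ℝ, gaussianPDFReal 0 1 x * Real.exp (x ^ 2 / 4) =
        (Real.sqrt (2 * Real.pi))⁻¹ * Real.exp (-(1 / 4) * x ^ 2) := fun x => by
      simp only [gaussianPDFReal, NNReal.coe_one, mul_one, sub_zero, mul_assoc, ← Real.exp_add]
      ring_nf
    constructor
    · rw [gaussianReal_of_var_ne_zero 0 one_ne_zero, integrable_withDensity_iff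
        (measurable_gaussianPDF 0 1) (Filter.Eventually.of_forall fun x => gaussianPDF_lt_top)]
      simp only [toReal_gaussianPDF, mul_comm (Real.exp _), e]
      exact (integrable_exp_neg_mul_sq (by norm_num)).const_mul _
    · rw [integral_gaussianReal_eq_integral_smul one_ne_zero]
      simp only [smul_eq_mul, e, integral_const_mul, integral_gaussian]
      rw [← Real.sqrt_inv, ← Real.sqrt_mul (by positivity)]
      congr 1
      field_simp
      ring
  rw [← map_pi_eq_stdGaussian, lintegral_map (by fun_prop) (by fun_prop)]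
  have hi : Integrable (fun w : Fin N → ℝ => ∏ i, Real.exp (w i ^ 2 / 4))
      (Measure.pi fun _ => gaussianReal 0 1) := Integrable.fintype_prod fun _ => h1.1
  have e2 : ∀ w : Fin N → ℝ,
      Real.exp (‖(WithLp.toLp 2 w : EuclideanSpace ℝ (Fin N))‖ ^ 2 / 4) =
        ∏ i, Real.exp (w i ^ 2 / 4) := fun w => by
    rw [EuclideanSpace.real_norm_sq_eq, ← Real.exp_sum, Finset.sum_div]
  simp only [e2]
  rw [← ofReal_integral_eq_lintegral_ofReal hi
    (Filter.Eventually.of_forall fun w => Finset.prod_nonneg fun i _ => (Real.exp_pos _).le)]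
  rw [integral_fintype_prod_eq_prod (f := fun (_ : Fin N) (x : ℝ) => Real.exp (x ^ 2 / 4))]
  simp [h1.2]

/-- Exponential moment of a quadratic form whose transpose is bounded by `M`. -/
lemma lintegral_exp_quad {N : ℕ} {M : ℝ} (hM : 0 < M) (T : Fin N → E)
    (hT : ∀ h : Fin N → ℝ, ‖∑ c, h c • T c‖ ^ 2 ≤ M * ∑ c, h c ^ 2) :
    ∫⁻ g, ENNReal.ofReal (Real.exp ((∑ c, ⟪g, T c⟫ ^ 2) / (4 * M))) ∂stdGaussian E ≤
      ENNReal.ofReal (Real.sqrt 2 ^ N) := by
  set a := Real.sqrt ((2 * M)⁻¹) with ha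
  have ha2 : a ^ 2 = (2 * M)⁻¹ := Real.sq_sqrt (by positivity)
  set x : E → EuclideanSpace ℝ (Fin N) := fun g => WithLp.toLp 2 fun c => a * ⟪g, T c⟫ with hx
  have e1 : ∀ g, ENNReal.ofReal (Real.exp ((∑ c, ⟪g, T c⟫ ^ 2) / (4 * M))) =
      ∫⁻ h, ENNReal.ofReal (Real.exp ⟪g, a • ∑ c, h c • T c⟫) ∂stdGaussian (EuclideanSpace ℝ (Fin N)) := fun g => by
    have e : ∀ h : EuclideanSpace ℝ (Fin N), ⟪g, a • ∑ c, h c • T c⟫ = ⟪h, x g⟫ := fun h => by
      simp only [real_inner_smul_right, inner_sum, hx, PiLp.inner_apply, RCLike.inner_apply,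
        conj_trivial, Finset.mul_sum]
      exact Finset.sum_congr rfl fun c _ => by ring
    simp only [e, lintegral_exp_inner, hx, EuclideanSpace.real_norm_sq_eq, mul_pow, ha2,
      ← Finset.mul_sum]
    congr 2
    field_simp
    ring
  simp only [e1]
  rw [lintegral_lintegral_swap]
  · refine (lintegral_mono fun h => ?_).trans (lintegral_exp_sq N).le
    simp only [lintegral_exp_inner]
    refine ENNReal.ofReal_le_ofReal (Real.exp_le_exp.2 ?_)
    rw [norm_smul, mul_pow, Real.norm_eq_abs, sq_abs, ha2, EuclideanSpace.real_norm_sq_eq]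
    calc (2 * M)⁻¹ * ‖∑ c, h c • T c‖ ^ 2 / 2 ≤ (2 * M)⁻¹ * (M * ∑ c, h c ^ 2) / 2 := by
          gcongr
          exact hT _
      _ = _ := by field_simp; ring
  · refine Measurable.aemeasurable ?_
    fun_prop

/-- The expected largest of finitely many quadratic forms. -/
lemma integral_max_quad {N : ℕ} {M : ℝ} (hM : 0 < M) {ι : Type} [Fintype ι] [Nonempty ι]
    (T : ι → Fin N → E) (hT : ∀ i (h : Fin N → ℝ), ‖∑ c, h c • T i c‖ ^ 2 ≤ M * ∑ c, h c ^ 2) :
    Integrable (fun g => ⨆ i, ∑ c, ⟪g, T i c⟫ ^ 2) (stdGaussian E) ∧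
      ∫ g, (⨆ i, ∑ c, ⟪g, T i c⟫ ^ 2) ∂stdGaussian E ≤
        4 * M * (Real.log (Fintype.card ι) + N) := by
  set q : ι → E → ℝ := fun i g => ∑ c, ⟪g, T i c⟫ ^ 2 with hq
  set Y : E → ℝ := fun g => ∑ i, Real.exp (q i g / (4 * M)) with hY
  set c := (Fintype.card ι : ℝ) * Real.sqrt 2 ^ N with hc
  have hc0 : 0 < c := mul_pos (by exact_mod_cast Fintype.card_pos) (by positivity)
  have hYm : Measurable Y := Finset.measurable_fun_sum _ fun i _ => by fun_prop
  have hY0 : ∀ g, 0 ≤ Y g := fun g => Finset.sum_nonneg fun i _ => (Real.exp_pos _).le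
  have hYl : ∫⁻ g, ENNReal.ofReal (Y g) ∂stdGaussian E ≤ ENNReal.ofReal c := by
    simp only [hY, ENNReal.ofReal_sum_of_nonneg fun i _ => (Real.exp_pos _).le]
    rw [lintegral_finsetSum _ fun i _ => by fun_prop]
    refine (Finset.sum_le_sum fun i _ => lintegral_exp_quad hM (T i) (hT i)).trans_eq ?_
    rw [Finset.sum_const, Finset.card_univ, hc, ENNReal.ofReal_mul (by positivity),
      ENNReal.ofReal_natCast, nsmul_eq_mul]
  have hYi : Integrable Y (stdGaussian E) := by
    refine ⟨hYm.aestronglyMeasurable, ?_⟩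
    rw [hasFiniteIntegral_iff_ofReal (Filter.Eventually.of_forall hY0)]
    exact hYl.trans_lt ENNReal.ofReal_lt_top
  have hYc : ∫ g, Y g ∂stdGaussian E ≤ c := by
    rw [← ENNReal.ofReal_le_ofReal_iff hc0.le,
      ofReal_integral_eq_lintegral_ofReal hYi (Filter.Eventually.of_forall hY0)]
    exact hYl
  have hpt : ∀ g, (⨆ i, q i g) ≤ 4 * M * (Real.log c + Y g / c - 1) := fun g => by
    refine ciSup_le fun i => ?_
    have h1 : Real.exp (q i g / (4 * M)) ≤ Y g :=
      Finset.single_le_sum (f := fun i => Real.exp (q i g / (4 * M)))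
        (fun j _ => (Real.exp_pos _).le) (Finset.mem_univ i)
    have hYp : 0 < Y g := (Real.exp_pos _).trans_le h1
    have h2 : q i g / (4 * M) ≤ Real.log (Y g) := by
      rw [← Real.exp_le_exp, Real.exp_log hYp]
      exact h1
    have h3 := Real.log_le_sub_one_of_pos (div_pos hYp hc0)
    rw [Real.log_div hYp.ne' hc0.ne'] at h3
    rw [div_le_iff₀' (by positivity)] at h2
    exact h2.trans (mul_le_mul_of_nonneg_left (by linarith) (by positivity))
  have h0 : ∀ g, 0 ≤ ⨆ i, q i g := fun g => Real.iSup_nonneg fun i =>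
    Finset.sum_nonneg fun c _ => sq_nonneg _
  have hmaj : Integrable (fun g => 4 * M * (Real.log c + Y g / c - 1)) (stdGaussian E) :=
    (((integrable_const _).add (hYi.div_const c)).sub (integrable_const 1)).const_mul _
  have hqi : Integrable (fun g => ⨆ i, q i g) (stdGaussian E) :=
    hmaj.mono' (Measurable.iSup fun i => by fun_prop).aestronglyMeasurable
      (Filter.Eventually.of_forall fun g => by rw [Real.norm_of_nonneg (h0 g)]; exact hpt g)
  refine ⟨hqi, (integral_mono hqi hmaj hpt).trans ?_⟩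
  rw [integral_const_mul]
  refine mul_le_mul_of_nonneg_left ?_ (by positivity)
  have i0 : Integrable (fun g => Real.log c + Y g / c) (stdGaussian E) :=
    (integrable_const _).add (hYi.div_const c)
  rw [integral_sub i0 (integrable_const _),
    integral_add (integrable_const _) (hYi.div_const c), integral_div]
  simp only [integral_const, probReal_univ, one_smul]
  have h4 : (∫ g, Y g ∂stdGaussian E) / c ≤ 1 := (div_le_one hc0).2 hYc
  have h5 : Real.log c ≤ Real.log (Fintype.card ι) + N := by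
    rw [hc, Real.log_mul (by exact_mod_cast Fintype.card_ne_zero) (by positivity), Real.log_pow]
    have : Real.log (Real.sqrt 2) ≤ 1 := by
      have := Real.log_le_sub_one_of_pos (x := Real.sqrt 2) (by positivity)
      linarith [show Real.sqrt 2 ≤ 2 by rw [Real.sqrt_le_iff]; norm_num]
    nlinarith [Nat.cast_nonneg (α := ℝ) N]
  linarith

/-- Deviation on a product through the average over one factor. -/
lemma mad_prod {α β : Type} [MeasurableSpace α] [MeasurableSpace β] {μ : Measure α} {ν : Measure β}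
    [IsProbabilityMeasure μ] [IsProbabilityMeasure ν] {f : α × β → ℝ} (hf : Integrable f (μ.prod ν))
    (c : ℝ) :
    ∫ z, |f z - c| ∂μ.prod ν ≤ ∫ a, (∫ b, |f (a, b) - ∫ b', f (a, b') ∂ν| ∂ν) ∂μ +
      ∫ a, |∫ b', f (a, b') ∂ν - c| ∂μ := by
  have hm : Integrable (fun a => ∫ b', f (a, b') ∂ν) μ := hf.integral_prod_left
  have hd : Integrable (fun z : α × β => f z - ∫ b', f (z.1, b') ∂ν) (μ.prod ν) :=
    hf.sub (hm.comp_fst ν)
  have hc : Integrable (fun z : α × β => |(∫ b', f (z.1, b') ∂ν) - c|) (μ.prod ν) :=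
    ((hm.sub (integrable_const c)).abs.comp_fst ν)
  refine (integral_mono (g := fun z => |f z - ∫ b', f (z.1, b') ∂ν| + |(∫ b', f (z.1, b') ∂ν) - c|)
    (hf.sub (integrable_const c)).abs (hd.abs.add hc) fun z => abs_sub_le _ _ _).trans_eq ?_
  rw [integral_add hd.abs hc, integral_prod _ hd.abs, integral_prod _ hc]
  simp

end Vale.Agent.P166F.Dev
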