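import Vale.Agent.P166F.Up.Split
import Vale.Agent.P166F.Up.Dev.Gauss
import Vale.Agent.P166F.Up.Dev.Deriv

/-!
P166: bookkeeping of deviations on products and log-sums.
-/

namespace Vale.Agent.P166F.Dev

open MeasureTheory

section Mean

variable {α β : Type} [MeasurableSpace α] [MeasurableSpace β] {μ : Measure α} {ν : Measure β}
  [IsProbabilityMeasure μ]

/-- The mean is at most twice as far from the values as any constant. -/
lemma mad_le_two {f : α → ℝ} (hf : Integrable f μ) (c : ℝ) :
    ∫ a, |f a - ∫ a', f a' ∂μ| ∂μ ≤ 2 * ∫ a, |f a - c| ∂μ := by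
  have hd : Integrable (fun a => |f a - c|) μ := (hf.sub (integrable_const c)).abs
  have h0 : |c - ∫ a', f a' ∂μ| ≤ ∫ a, |f a - c| ∂μ := by
    rw [abs_sub_comm]
    calc |(∫ a', f a' ∂μ) - c| = |∫ a, (f a - c) ∂μ| := by
          rw [integral_sub hf (integrable_const c)]; simp
      _ ≤ _ := abs_integral_le_integral_abs
  refine (integral_mono (g := fun a => |f a - c| + |c - ∫ a', f a' ∂μ|)
    (hf.sub (integrable_const _)).abs (hd.add (integrable_const _))
    fun a => abs_sub_le _ _ _).trans ?_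
  rw [integral_add hd (integrable_const _)]
  simp only [integral_const, probReal_univ, one_smul]
  linarith

variable [IsProbabilityMeasure ν]

/-- The deviation of an average is at most the average deviation. -/
lemma mad_mean {f : α × β → ℝ} (hf : Integrable f (μ.prod ν)) :
    ∫ a, |∫ b, f (a, b) ∂ν - ∫ a', ∫ b, f (a', b) ∂ν ∂μ| ∂μ ≤
      ∫ b, ∫ a, |f (a, b) - ∫ a', f (a', b) ∂μ| ∂μ ∂ν := by
  have hm : Integrable (fun b => ∫ a', f (a', b) ∂μ) ν := hf.integral_prod_right
  have hd : Integrable (fun z : α × β => f z - ∫ a', f (a', z.2) ∂μ) (μ.prod ν) :=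
    hf.sub (hm.comp_snd μ)
  rw [integral_integral_swap (f := fun a' b => f (a', b)) hf,
    ← integral_integral_swap (f := fun a b => |f (a, b) - ∫ a', f (a', b) ∂μ|) hd.abs]
  refine integral_mono_ae (hf.integral_prod_left.sub (integrable_const _)).abs
    hd.abs.integral_prod_left ?_
  filter_upwards [hf.prod_right_ae] with a ha
  rw [← integral_sub ha hm]
  exact abs_integral_le_integral_abs

/-- Distance of an average from the average of a comparison. -/
lemma mean_dist_le {f : α × β → ℝ} {h : β → ℝ} (hf : Integrable f (μ.prod ν)) (hh : Integrable h ν) :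
    ∫ a, |∫ b, f (a, b) ∂ν - ∫ b, h b ∂ν| ∂μ ≤ ∫ z, |f z - h z.2| ∂μ.prod ν := by
  have hd : Integrable (fun z : α × β => f z - h z.2) (μ.prod ν) := hf.sub (hh.comp_snd μ)
  rw [integral_prod _ hd.abs]
  refine integral_mono_ae (hf.integral_prod_left.sub (integrable_const _)).abs
    hd.abs.integral_prod_left ?_
  filter_upwards [hf.prod_right_ae] with a ha
  rw [← integral_sub ha hh]
  exact abs_integral_le_integral_abs

end Mean

section LogSum

variable {X : Type} [Fintype X] [Nonempty X]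

lemma gibW_nonneg (e : X → ℝ) (x : X) : 0 ≤ gibW e x :=
  div_nonneg (Real.exp_pos _).le (Finset.sum_nonneg fun _ _ => (Real.exp_pos _).le)

lemma sum_gibW (e : X → ℝ) : ∑ x, gibW e x = 1 := by
  simp only [gibW, ← Finset.sum_div]
  exact div_self (Finset.sum_pos (fun _ _ => Real.exp_pos _) Finset.univ_nonempty).ne'

lemma lsum_mono_add {e f : X → ℝ} {c : ℝ} (h : ∀ x, e x ≤ f x + c) : lsum e ≤ lsum f + c := by
  have hp : 0 < ∑ x, Real.exp (f x) :=
    Finset.sum_pos (fun _ _ => Real.exp_pos _) Finset.univ_nonempty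
  refine (Real.log_le_log (Finset.sum_pos (fun _ _ => Real.exp_pos _) Finset.univ_nonempty)
    (Finset.sum_le_sum fun x _ => Real.exp_le_exp.2 (h x))).trans_eq ?_
  simp only [Real.exp_add, ← Finset.sum_mul]
  rw [Real.log_mul hp.ne' (Real.exp_pos _).ne', Real.log_exp]
  rfl

lemma abs_lsum_sub_le {e f : X → ℝ} {c : ℝ} (h : ∀ x, |e x - f x| ≤ c) : |lsum e - lsum f| ≤ c := by
  rw [abs_sub_le_iff]
  constructor
  · linarith [lsum_mono_add (e := e) (f := f) (c := c) fun x => by linarith [(abs_le.1 (h x)).2]]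
  · linarith [lsum_mono_add (e := f) (f := e) (c := c) fun x => by linarith [(abs_le.1 (h x)).1]]

lemma abs_lsum_le (e : X → ℝ) : |lsum e| ≤ Real.log (Fintype.card X) + ∑ x, |e x| := by
  have h := abs_lsum_sub_le (e := e) (f := fun _ => 0) (c := ∑ x, |e x|) fun x => by
    rw [sub_zero]
    exact Finset.single_le_sum (f := fun x => |e x|) (fun _ _ => abs_nonneg _) (Finset.mem_univ x)
  have h0 : lsum (fun _ : X => (0 : ℝ)) = Real.log (Fintype.card X) := by simp [lsum]
  have h1 : 0 ≤ Real.log (Fintype.card X) :=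
    Real.log_nonneg (by exact_mod_cast Fintype.card_pos (α := X))
  rw [h0] at h
  have := abs_sub_abs_le_abs_sub (lsum e) (Real.log (Fintype.card X))
  rw [abs_of_nonneg h1] at this
  linarith

lemma lsum_sub_le (e f : X → ℝ) : lsum e - lsum f ≤ ∑ x, gibW e x * (e x - f x) := by
  set Z := ∑ x, Real.exp (e x)
  have hZ : 0 < Z := Finset.sum_pos (fun _ _ => Real.exp_pos _) Finset.univ_nonempty
  set μ := ∑ x, gibW e x * (e x - f x) with hμ
  have h1 : ∀ x, gibW e x * (μ - (e x - f x) + 1) ≤ Real.exp (f x) * Real.exp μ / Z := fun x => by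
    refine (mul_le_mul_of_nonneg_left (Real.add_one_le_exp _) (gibW_nonneg e x)).trans_eq ?_
    rw [gibW, div_mul_eq_mul_div, ← Real.exp_add, ← Real.exp_add]
    congr 2
    ring
  have h2 : (1 : ℝ) ≤ (∑ x, Real.exp (f x)) * Real.exp μ / Z := by
    rw [Finset.sum_mul, Finset.sum_div]
    refine le_trans (le_of_eq ?_) (Finset.sum_le_sum fun x _ => h1 x)
    have e1 : ∀ x, gibW e x * (μ - (e x - f x) + 1) =
        gibW e x * (μ + 1) - gibW e x * (e x - f x) := fun x => by ring
    simp only [e1, Finset.sum_sub_distrib, ← Finset.sum_mul, sum_gibW, ← hμ]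
    ring
  rw [one_le_div hZ] at h2
  have h3 := Real.log_le_log hZ h2
  rw [Real.log_mul (Finset.sum_pos (fun _ _ => Real.exp_pos _) Finset.univ_nonempty).ne'
    (Real.exp_pos _).ne', Real.log_exp] at h3
  simp only [lsum]
  linarith

lemma sq_lsum_sub_le (e f : X → ℝ) :
    (lsum e - lsum f) ^ 2 ≤
      ∑ x, gibW e x * (e x - f x) ^ 2 + ∑ x, gibW f x * (e x - f x) ^ 2 := by
  have hcs : ∀ p : X → ℝ, (∀ x, 0 ≤ p x) → ∑ x, p x = 1 → ∀ d : X → ℝ,
      (∑ x, p x * d x) ^ 2 ≤ ∑ x, p x * d x ^ 2 := fun p hp hp1 d => by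
    have := Finset.sum_sq_le_sum_mul_sum_of_sq_le_mul Finset.univ (r := fun x => p x * d x)
      (f := p) (g := fun x => p x * d x ^ 2) (fun x _ => hp x)
      (fun x _ => mul_nonneg (hp x) (sq_nonneg _)) fun x _ => le_of_eq (by ring)
    rwa [hp1, one_mul] at this
  have h1 := lsum_sub_le e f
  have h2 := lsum_sub_le f e
  have h3 := hcs _ (gibW_nonneg e) (sum_gibW e) fun x => e x - f x
  have h4 := hcs _ (gibW_nonneg f) (sum_gibW f) fun x => e x - f x
  have e2 : ∑ x, gibW f x * (f x - e x) = -∑ x, gibW f x * (e x - f x) := by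
    rw [← Finset.sum_neg_distrib]
    exact Finset.sum_congr rfl fun x _ => by ring
  rw [e2] at h2
  rcases le_total 0 (lsum e - lsum f) with h | h
  · nlinarith [mul_self_le_mul_self h h1, sq_nonneg (∑ x, gibW f x * (e x - f x))]
  · have hB : -(lsum e - lsum f) ≤ -∑ x, gibW f x * (e x - f x) := by linarith
    nlinarith [mul_self_le_mul_self (neg_nonneg.2 h) hB,
      sq_nonneg (∑ x, gibW e x * (e x - f x))]

end LogSum

end Vale.Agent.P166F.Dev
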