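import Vale.Agent.P166F.Up.Dev.Mad
import Vale.Agent.P166F.Tree

/-!
P166: the tree with the spins summed out, uniformly in the coefficients of the configurations.
-/

namespace Vale.Agent.P166F.Dev

open MeasureTheory ProbabilityTheory Filter
open Vale.Agent.P157
open Vale.Agent.P166 (spin)
open Vale.Agent.P166N (Node Leaf nonempty_leaf)
open scoped Topology

variable {N n k : ℕ}

/-- The spins summed out at given coefficients. -/
noncomputable def spinG (b : (Fin N → Bool) → ℝ) (h : EuclideanSpace ℝ (Fin N)) : ℝ :=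
  lsum fun σ => b σ + ∑ i, h i * spin (σ i)

lemma continuous_lsum {X : Type} [Fintype X] [Nonempty X] : Continuous (lsum (X := X)) :=
  (continuous_finsetSum _ fun x _ => (continuous_apply x).rexp).log fun e =>
    (Finset.sum_pos (fun _ _ => Real.exp_pos _) Finset.univ_nonempty).ne'

lemma lip_spinG (b : (Fin N → Bool) → ℝ) : RSB.Lip (Real.sqrt N) (spinG b) := by
  refine ⟨(continuous_lsum.comp (by fun_prop)).measurable, Real.sqrt_nonneg _, fun x y => ?_⟩
  refine abs_lsum_sub_le fun σ => ?_
  rw [add_sub_add_left_eq_sub, ← Finset.sum_sub_distrib]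
  simp only [PiLp.add_apply, add_mul, add_sub_cancel_left]
  refine Real.abs_le_sqrt ?_ |>.trans_eq
    (show Real.sqrt ((N : ℝ) * ‖y‖ ^ 2) = Real.sqrt N * ‖y‖ by
      rw [Real.sqrt_mul (Nat.cast_nonneg _), Real.sqrt_sq (norm_nonneg _)])
  refine (Finset.sum_mul_sq_le_sq_mul_sq Finset.univ _ _).trans_eq ?_
  simp [EuclideanSpace.real_norm_sq_eq, spin_sq, mul_comm]

lemma abs_spinG_sub_le (b b' : (Fin N → Bool) → ℝ) (h : EuclideanSpace ℝ (Fin N)) :
    |spinG b h - spinG b' h| ≤ ‖b - b'‖ := by
  refine abs_lsum_sub_le fun σ => ?_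
  rw [add_sub_add_right_eq_sub, ← Real.norm_eq_abs]
  exact norm_le_pi_norm (b - b') σ

variable {m : ℕ → ℝ} {R : ℕ → Fin N → ℝ}

lemma abs_treeLog_spinG_sub_le (hn : 1 ≤ n) {w : (Node n k → ℝ) ×
      (Option (Node n k) → EuclideanSpace ℝ (Fin N))} (hw : ∀ u, 0 < w.1 u)
    (b b' : (Fin N → Bool) → ℝ) :
    |treeLog (n := n) k m R (spinG b) w - treeLog (n := n) k m R (spinG b') w| ≤ ‖b - b'‖ := by
  have := nonempty_leaf hn k
  have hp := wgt_pos (m := m) hn hw
  have hW : 0 < ∑ l, wgt n k m w.1 l := Finset.sum_pos (fun l _ => hp l) Finset.univ_nonempty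
  have e : ∀ c, treeLog (n := n) k m R (spinG c) w = lsum (fun l =>
      Real.log (wgt n k m w.1 l) + spinG c (leafPt k R l w.2)) -
        Real.log (∑ l, wgt n k m w.1 l) := fun c => by
    rw [treeLog, Real.log_div (Finset.sum_pos (fun l _ => mul_pos (hp l) (Real.exp_pos _))
      Finset.univ_nonempty).ne' hW.ne', lsum]
    simp only [Real.exp_add, Real.exp_log (hp _)]
  rw [e, e, sub_sub_sub_cancel_right]
  refine abs_lsum_sub_le fun l => ?_
  rw [add_sub_add_left_eq_sub]
  exact abs_spinG_sub_le b b' _

section Below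

variable (hm : ∀ j, 1 ≤ j → j ≤ k → 0 < m j)
include hm

lemma abs_nestVal_spinG_sub_le (b b' : (Fin N → Bool) → ℝ) (x : EuclideanSpace ℝ (Fin N)) :
    |nestVal k m R (spinG b) x - nestVal k m R (spinG b') x| ≤ ‖b - b'‖ := by
  have hg := good_levs (ι := Fin N) R hm
  have key : ∀ c c', nestVal k m R (spinG c) x ≤ nestVal k m R (spinG c') x + ‖c - c'‖ := fun c c' => by
    have hL : RSB.Lip (Real.sqrt N) fun h => spinG c' h + ‖c - c'‖ :=
      ⟨(lip_spinG c').meas.add_const _, Real.sqrt_nonneg _, fun u v => by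
        simpa using (lip_spinG c').lip u v⟩
    rw [nestVal_eq, nestVal_eq, ← RSB.casc_add_const (lip_spinG c') _ hg]
    exact RSB.casc_mono (lip_spinG c) hL
      (fun h => by linarith [(abs_le.1 (abs_spinG_sub_le c c' h)).2]) hg x
  have h1 := key b b'
  have h2 := key b' b
  rw [norm_sub_rev b' b] at h2
  rw [abs_le]
  constructor <;> linarith

/-- The value below the root at the root field. -/
lemma continuous_rootVal :
    Continuous fun p : ((Fin N → Bool) → ℝ) × EuclideanSpace ℝ (Fin N) =>
      nestVal k m R (spinG p.1) (rootPt R p.2) := by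
  have hroot : Continuous (rootPt R) := by unfold rootPt; fun_prop
  have hx : ∀ b, LipschitzWith (Real.toNNReal (Real.sqrt N)) (nestVal k m R (spinG b)) := fun b => by
    refine LipschitzWith.of_dist_le_mul fun x y => ?_
    have hg := good_levs (ι := Fin N) R hm
    have h := ((lip_spinG b).casc hg).lip y (x - y)
    rw [add_sub_cancel, ← nestVal_eq, ← nestVal_eq] at h
    rwa [Real.dist_eq, dist_eq_norm, Real.coe_toNNReal _ (Real.sqrt_nonneg _)]
  exact continuous_prod_of_continuous_lipschitzWith
    (fun q : ((Fin N → Bool) → ℝ) × EuclideanSpace ℝ (Fin N) => nestVal k m R (spinG q.1) (rootPt R q.2))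
    1 (fun b => (hx b).continuous.comp hroot) (fun h => LipschitzWith.of_dist_le_mul fun b b' => by
      rw [Real.dist_eq, dist_eq_norm, NNReal.coe_one, one_mul]
      exact abs_nestVal_spinG_sub_le hm b b' _)

end Below

variable (hm : ∀ j, 1 ≤ j → j ≤ k → 0 < m j ∧ m j < 1) (hs : ∀ j, 1 ≤ j → j < k → m j < m (j + 1))
include hm hs

/-- The deviation from the value at the root for coefficients `b`. -/
noncomputable def rootDev (n k : ℕ) (m : ℕ → ℝ) (R : ℕ → Fin N → ℝ) (b : (Fin N → Bool) → ℝ) : ℝ :=
  ∫ w, |treeLog (n := n) k m R (spinG b) w - nestVal k m R (spinG b) (rootPt R (w.2 none))|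
    ∂markLaw n k (Fin N)

lemma integrable_rootDiff (hn : 1 ≤ n) (b : (Fin N → Bool) → ℝ) :
    Integrable (fun w : (Node n k → ℝ) × (Option (Node n k) → EuclideanSpace ℝ (Fin N)) =>
      treeLog (n := n) k m R (spinG b) w - nestVal k m R (spinG b) (rootPt R (w.2 none)))
      (markLaw n k (Fin N)) := by
  refine (integral_treeLog hm hs (R := R) (lip_spinG b) hn).1.sub ?_
  have hg := good_levs (ι := Fin N) R fun j h1 h2 => (hm j h1 h2).1
  have h : Integrable (fun z : EuclideanSpace ℝ (Fin N) => nestVal k m R (spinG b) (rootPt R z))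
      (stdGaussian (EuclideanSpace ℝ (Fin N))) := by
    refine ((integrable_const |nestVal k m R (spinG b) 0|).add
      ((integrable_norm_rootPt R).const_mul (Real.sqrt N))).mono'
      ((measurable_nestVal (fun j h1 h2 => (hm j h1 h2).1) (lip_spinG b)).comp
        (measurable_rootPt R)).aestronglyMeasurable (Eventually.of_forall fun z => ?_)
    have h1 := lip_nestVal (R := R) hm (lip_spinG b) 0 (rootPt R z)
    rw [zero_add] at h1
    simp only [Real.norm_eq_abs, Pi.add_apply]
    linarith [abs_sub_abs_le_abs_sub (nestVal k m R (spinG b) (rootPt R z))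
      (nestVal k m R (spinG b) 0)]
  exact ((measurePreserving_eval (fun _ : Option (Node n k) => stdGaussian (EuclideanSpace ℝ (Fin N)))
    none).integrable_comp_of_integrable h).comp_snd _

lemma abs_rootDev_sub_le (hn : 1 ≤ n) (b b' : (Fin N → Bool) → ℝ) :
    |rootDev n k m R b - rootDev n k m R b'| ≤ 2 * ‖b - b'‖ := by
  have i := fun c => (integrable_rootDiff hm hs (R := R) hn c).abs
  rw [rootDev, rootDev, ← integral_sub (i b) (i b')]
  refine abs_integral_le_integral_abs.trans ?_
  refine (integral_mono_ae ((i b).sub (i b')).abs (integrable_const (2 * ‖b - b'‖)) ?_).trans_eq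
    (by unfold markLaw; simp)
  filter_upwards [Measure.quasiMeasurePreserving_fst.ae (ae_node_pos' (n := n) (k := k))] with w hw
  refine (abs_abs_sub_abs_le_abs_sub _ _).trans ?_
  have h1 := abs_le.1 (abs_treeLog_spinG_sub_le (m := m) (R := R) hn hw b b')
  have h2 := abs_le.1 (abs_nestVal_spinG_sub_le (fun j h1 h2 => (hm j h1 h2).1) b b'
    (rootPt R (w.2 none)) (R := R))
  rw [abs_le]
  constructor <;> linarith

/-- Averaged over the coefficients the deviation stays bounded. -/
theorem eventually_mean_rootDev {Q : Type} [MeasurableSpace Q] {μ : Measure Q}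
    [IsProbabilityMeasure μ] {b : Q → (Fin N → Bool) → ℝ} (hb : Measurable b)
    (hi : Integrable (fun q => ‖b q‖) μ) :
    ∀ᶠ n in atTop, Integrable (fun q => rootDev n k m R (b q)) μ ∧
      ∫ q, rootDev n k m R (b q) ∂μ ≤ devConst k m + 2 := by
  set C := devConst k m + 1
  have hcont : ∀ n, 1 ≤ n → Continuous (rootDev (N := N) n k m R) := fun n hn =>
    LipschitzWith.continuous (K := 2) (LipschitzWith.of_dist_le_mul fun c c' => by
      rw [Real.dist_eq, dist_eq_norm]
      exact_mod_cast abs_rootDev_sub_le hm hs hn c c')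
  set g := fun (n : ℕ) q => max (rootDev n k m R (b q) - C) 0
  have hlim : Tendsto (fun n => ∫ q, g n q ∂μ) atTop (𝓝 (∫ _q, (0 : ℝ) ∂μ)) := by
    refine tendsto_integral_filter_of_dominated_convergence (fun q => 2 * ‖b q‖)
      ((eventually_ge_atTop 1).mono fun n hn => ((((hcont n hn).measurable.comp hb).sub_const C).max
        measurable_const).aestronglyMeasurable) ?_ (hi.const_mul 2) (Eventually.of_forall fun q => ?_)
    · filter_upwards [eventually_ge_atTop 1,
        treeLog_dev_aux hm hs (R := R) (lip_spinG (0 : (Fin N → Bool) → ℝ))] with n hn h0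
      refine Eventually.of_forall fun q => ?_
      rw [Real.norm_of_nonneg (le_max_right _ _)]
      refine max_le ?_ (by positivity)
      have h1 := (abs_le.1 (abs_rootDev_sub_le hm hs (R := R) hn (b q) 0)).2
      rw [sub_zero] at h1
      have h0' : rootDev n k m R (0 : (Fin N → Bool) → ℝ) ≤ C := h0
      linarith
    · refine tendsto_const_nhds.congr' ((treeLog_dev_aux hm hs (R := R) (lip_spinG (b q))).mono
        fun n hn => ?_)
      exact (max_eq_right (sub_nonpos.2 hn)).symm
  rw [integral_zero] at hlim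
  filter_upwards [eventually_ge_atTop 1, hlim.eventually_le_const one_pos] with n hn h1
  have hint : Integrable (fun q => rootDev n k m R (b q)) μ := by
    refine ((integrable_const |rootDev n k m R (0 : (Fin N → Bool) → ℝ)|).add (hi.const_mul 2)).mono'
      ((hcont n hn).measurable.comp hb).aestronglyMeasurable (Eventually.of_forall fun q => ?_)
    have h1 := abs_rootDev_sub_le hm hs (R := R) hn (b q) 0
    rw [sub_zero] at h1
    simp only [Real.norm_eq_abs, Pi.add_apply]
    linarith [abs_sub_abs_le_abs_sub (rootDev n k m R (b q)) (rootDev n k m R 0)]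
  refine ⟨hint, ?_⟩
  have hgi : Integrable (g n) μ := (hint.sub (integrable_const C)).pos_part
  calc ∫ q, rootDev n k m R (b q) ∂μ ≤ ∫ q, g n q + C ∂μ :=
        integral_mono hint (hgi.add (integrable_const C)) fun q => by
          linarith [le_max_left (rootDev n k m R (b q) - C) 0]
    _ ≤ _ := by
        rw [integral_add hgi (integrable_const C)]
        simp only [integral_const, probReal_univ, one_smul]
        linarith

end Vale.Agent.P166F.Dev
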