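import Vale.Agent.P166F.Up.Dev.Mad

/-!
P166: deviation of the log-sum in the rotation and the Gaussian fields at fixed other constants.
-/

namespace Vale.Agent.P166F.Dev

open MeasureTheory ProbabilityTheory Matrix
open scoped RealInnerProductSpace
open Vale.Agent.P166N.Spectrum (spins)

variable {K N P : ℕ}

lemma continuous_feat (blk : Fin N → Fin K) (y : CIdx (Fin K) P → ℝ) (σ : Fin N → Bool) :
    Continuous fun U => feat blk y U σ := by
  have := fun j c => (contDiff_bco blk σ j c).continuous
  unfold feat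
  fun_prop

lemma continuous_gradVec (blk : Fin N → Fin K) (y : CIdx (Fin K) P → ℝ) (σ : Fin N → Bool)
    (c : Fin N) : Continuous fun U => gradVec blk y U σ c := by
  have := fun j c => (contDiff_bco blk σ j c).continuous
  unfold gradVec slotProd
  fun_prop

lemma continuous_flipVec (blk : Fin N → Fin K) (y : CIdx (Fin K) P → ℝ) (σ : Fin N → Bool)
    (c : Fin N) : Continuous fun U => flipVec blk y U σ c :=
  (continuous_feat blk y σ).sub ((continuous_feat blk y σ).comp (Orth.continuous_mm_right _))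

section Max

variable {E : Type} [NormedAddCommGroup E] [InnerProductSpace ℝ E] [FiniteDimensional ℝ E]
  [MeasurableSpace E] [BorelSpace E]

/-- The largest quadratic form at a rotation. -/
noncomputable def qmax (T : (Fin N → Fin N → ℝ) → (Fin N → Bool) → Fin N → E)
    (p : E × (Fin N → Fin N → ℝ)) : ℝ :=
  ⨆ σ, ∑ c, ⟪p.1, T p.2 σ c⟫ ^ 2

lemma qmax_facts {ν : Measure (Fin N → Fin N → ℝ)} (hν : Orth.StabLaw ∅ ν)
    {T : (Fin N → Fin N → ℝ) → (Fin N → Bool) → Fin N → E} (hT : ∀ σ c, Continuous fun U => T U σ c)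
    {M : ℝ} (hM : 0 < M) (hb : ∀ U, (of U)ᵀ * of U = 1 → ∀ σ (h : Fin N → ℝ),
      ‖∑ c, h c • T U σ c‖ ^ 2 ≤ M * ∑ c, h c ^ 2) :
    Integrable (qmax T) ((stdGaussian E).prod ν) ∧
      ∫ p, qmax T p ∂(stdGaussian E).prod ν ≤ 8 * M * N := by
  have := hν.prob
  have hq : ∀ U, (of U)ᵀ * of U = 1 → ∀ g σ, ∑ c, ⟪g, T U σ c⟫ ^ 2 ≤ M * ‖g‖ ^ 2 := fun U hU g σ => by
    set S0 := ∑ c, ⟪g, T U σ c⟫ ^ 2
    have h0 : 0 ≤ S0 := Finset.sum_nonneg fun c _ => sq_nonneg _
    have e : ⟪g, ∑ c, ⟪g, T U σ c⟫ • T U σ c⟫ = S0 := by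
      simp only [inner_sum, real_inner_smul_right, S0, sq]
    have h1 := real_inner_le_norm g (∑ c, ⟪g, T U σ c⟫ • T U σ c)
    rw [e] at h1
    have h2 : S0 ^ 2 ≤ ‖g‖ ^ 2 * (M * S0) :=
      (pow_le_pow_left₀ h0 h1 2).trans (by
        rw [mul_pow]
        exact mul_le_mul_of_nonneg_left (hb U hU σ _) (sq_nonneg _))
    rcases h0.eq_or_lt with h | h
    · rw [← h]; positivity
    · nlinarith
  have hc : Continuous (qmax T) := by
    have e : qmax T = fun p => Finset.univ.sup' Finset.univ_nonempty
        fun σ => ∑ c, ⟪p.1, T p.2 σ c⟫ ^ 2 := by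
      funext p
      rw [Finset.sup'_univ_eq_ciSup]
      rfl
    rw [e]
    exact Continuous.finset_sup'_apply _ fun σ _ => continuous_finsetSum _ fun c _ =>
      (continuous_fst.inner ((hT σ c).comp continuous_snd)).pow 2
  have hn : ∀ p, 0 ≤ qmax T p := fun p => Real.iSup_nonneg fun σ =>
    Finset.sum_nonneg fun c _ => sq_nonneg _
  have hi : Integrable (qmax T) ((stdGaussian E).prod ν) := by
    refine (((IsGaussian.memLp_two_id (μ := stdGaussian E)).integrable_norm_pow two_ne_zero).const_mul M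
      |>.comp_fst ν).mono' hc.aestronglyMeasurable ?_
    filter_upwards [Measure.quasiMeasurePreserving_snd.ae hν.fix] with p hp
    rw [Real.norm_of_nonneg (hn p)]
    exact ciSup_le fun σ => hq p.2 hp.1 p.1 σ
  refine ⟨hi, ?_⟩
  rw [integral_prod_symm _ hi]
  refine (integral_mono_ae hi.integral_prod_right (integrable_const (8 * M * N))
    (hν.fix.mono fun U hU => ?_)).trans_eq (by simp)
  refine (integral_max_quad hM (fun σ => T U σ) (hb U hU.1)).2.trans ?_
  have h : Real.log (Fintype.card (Fin N → Bool)) ≤ N := by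
    simp only [Fintype.card_fun, Fintype.card_bool, Fintype.card_fin, Nat.cast_pow, Nat.cast_ofNat,
      Real.log_pow]
    nlinarith [Real.log_two_lt_d9, Nat.cast_nonneg (α := ℝ) N]
  nlinarith

end Max

variable {X : Type} [Fintype X] [Nonempty X] {E : Type} [NormedAddCommGroup E]
  [InnerProductSpace ℝ E] [FiniteDimensional ℝ E] [MeasurableSpace E] [BorelSpace E]

/-- The log-sum as a function of the rotation and the Gaussian fields. -/
noncomputable def restLse (a : Atoms K) (blk : Fin N → Fin K) (t s : ℝ) (y : CIdx (Fin K) P → ℝ)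
    (π : X → Fin N → Bool) (κ : X → ℝ) (W : X → E)
    (w : (Fin N → Fin N → ℝ) × (GSp K N P × E)) : ℝ :=
  lsum fun x => expo a blk t s y w.2.1 (π x) w.1 + (κ x + ⟪w.2.2, W x⟫)

variable (a : Atoms K) (blk : Fin N → Fin K) {ν : Measure (Fin N → Fin N → ℝ)}
  (hν : Orth.StabLaw ∅ ν) (t s : ℝ) {S : ℝ} (y : CIdx (Fin K) P → ℝ)
  (π : X → Fin N → Bool) (κ : X → ℝ) (W : X → E)

lemma continuous_expo (σ : Fin N → Bool) :
    Continuous fun p : (Fin N → Fin N → ℝ) × GSp K N P => expo a blk t s y p.2 σ p.1 := by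
  unfold expo
  exact ((Orth.contDiff_quad _ _ _).continuous.comp continuous_fst).add
    (continuous_snd.inner ((continuous_feat blk y σ).comp continuous_fst))

lemma continuous_restLse : Continuous (restLse a blk t s y π κ W) := by
  refine ((continuous_finsetSum _ fun x _ => Real.continuous_exp.comp ?_).log fun w =>
    (Finset.sum_pos (fun _ _ => Real.exp_pos _) Finset.univ_nonempty).ne')
  exact ((continuous_expo a blk t s y (π x)).comp
    (continuous_fst.prodMk (continuous_fst.comp continuous_snd))).add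
    (continuous_const.add ((continuous_snd.comp continuous_snd).inner continuous_const))

lemma abs_quad_le {l : Fin N → ℝ} {Λ : ℝ} (hl : ∀ c, |l c| ≤ Λ) {U : Fin N → Fin N → ℝ}
    (hU : (of U)ᵀ * of U = 1) (σ : Fin N → Bool) :
    |Orth.quad 1 l (spins σ) U| ≤ Λ * N := by
  rw [Orth.quad, abs_mul, show |(1 : ℝ) / 2| = 1 / 2 by norm_num]
  have h : |∑ c, l c * Orth.proj (spins σ) c U ^ 2| ≤ Λ * N := by
    refine (Finset.abs_sum_le_sum_abs _ _).trans ?_
    rw [← sum_spins_sq σ, ← Orth.sum_proj_sq hU, Finset.mul_sum]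
    refine Finset.sum_le_sum fun c _ => ?_
    rw [abs_mul, abs_of_nonneg (sq_nonneg (Orth.proj (spins σ) c U))]
    exact mul_le_mul_of_nonneg_right (hl c) (sq_nonneg _)
  linarith [abs_nonneg (∑ c, l c * Orth.proj (spins σ) c U ^ 2)]

include hν in
lemma integrable_restLse {Λ : ℝ} (hΛ : ∀ c, |qwt a blk t s y c| ≤ Λ)
    (hy : ∀ e : Mon (Fin K) P, y (Sum.inl e) ^ 2 ≤ S ^ 2) :
    Integrable (restLse a blk t s y π κ W)
      (ν.prod ((stdGaussian (GSp K N P)).prod (stdGaussian E))) := by
  have := hν.prob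
  set l := Real.sqrt (Fintype.card (CIdx (Fin K) P) * S ^ 2)
  have h1 : Integrable (fun g : GSp K N P => ‖g‖) (stdGaussian (GSp K N P)) :=
    (IsGaussian.integrable_id (μ := stdGaussian (GSp K N P))).norm
  have h2 : Integrable (fun z : E => ‖z‖) (stdGaussian E) :=
    (IsGaussian.integrable_id (μ := stdGaussian E)).norm
  have hd : Integrable (fun w : (Fin N → Fin N → ℝ) × (GSp K N P × E) =>
      Real.log (Fintype.card X) + ∑ x, (Λ * N + ‖w.2.1‖ * l + (|κ x| + ‖w.2.2‖ * ‖W x‖)))
      (ν.prod ((stdGaussian (GSp K N P)).prod (stdGaussian E))) := by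
    refine (integrable_const _).add (integrable_finsetSum _ fun x _ => ?_)
    exact ((integrable_const _).add (((h1.mul_const l).comp_fst _).comp_snd _)).add
      ((integrable_const _).add (((h2.mul_const _).comp_snd _).comp_snd _))
  refine hd.mono' (continuous_restLse a blk t s y π κ W).aestronglyMeasurable ?_
  filter_upwards [Measure.quasiMeasurePreserving_fst.ae hν.fix] with w hw
  rw [Real.norm_eq_abs]
  refine (abs_lsum_le _).trans (add_le_add le_rfl (Finset.sum_le_sum fun x _ => ?_))
  refine (abs_add_le _ _).trans (add_le_add ?_ ((abs_add_le _ _).trans (add_le_add le_rfl ?_)))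
  · unfold expo
    refine (abs_add_le _ _).trans (add_le_add (abs_quad_le hΛ hw.1 _) ?_)
    refine (abs_real_inner_le_norm _ _).trans (mul_le_mul_of_nonneg_left ?_ (norm_nonneg _))
    exact Real.le_sqrt_of_sq_le (norm_feat_sq_le blk hw.1 _ y hy)
  · exact abs_real_inner_le_norm _ _

include hν in
lemma variance_restLse {Λ : ℝ} (hΛ : ∀ c, |qwt a blk t s y c| ≤ Λ) (g : GSp K N P) (z : E) :
    let f := fun U => restLse a blk t s y π κ W (U, (g, z))
    ∫ U, (f U - ∫ V, f V ∂ν) ^ 2 ∂ν ≤
      Real.pi ^ 2 / (2 * (N : ℝ)) * (8 * Λ ^ 2 * (N : ℝ) ^ 2 +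
          8 * N * ∫ U, qmax (gradVec blk y) (g, U) ∂ν) +
        1 / (N : ℝ) * ∫ U, qmax (flipVec blk y) (g, U) ∂ν := by
  intro f
  have := hν.prob
  set h : X → (Fin N → Fin N → ℝ) → ℝ := fun x U => expo a blk t s y g (π x) U + (κ x + ⟪z, W x⟫)
  have hf : f = Orth.lse h := rfl
  have hh : ∀ x, ContDiff ℝ 1 (h x) := fun x =>
    ((Orth.contDiff_quad _ _ _).add (contDiff_fld blk y g (π x))).add contDiff_const
  have hcq : ∀ {T : (Fin N → Fin N → ℝ) → (Fin N → Bool) → Fin N → GSp K N P},
      (∀ σ c, Continuous fun U => T U σ c) → Continuous fun U => qmax T (g, U) := fun {T} hT => by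
    have e : (fun U => qmax T (g, U)) = fun U => Finset.univ.sup' Finset.univ_nonempty
        fun σ => ∑ c, ⟪g, T U σ c⟫ ^ 2 := by
      funext U
      rw [Finset.sup'_univ_eq_ciSup]
      rfl
    rw [e]
    exact Continuous.finset_sup'_apply _ fun σ _ => continuous_finsetSum _ fun c _ =>
      (continuous_const.inner (hT σ c)).pow 2
  have i1 := hν.integrable (hcq (continuous_gradVec blk y))
  have i2 := hν.integrable (hcq (continuous_flipVec blk y))
  rw [hf]
  refine (Orth.variance_le hν (Orth.contDiff_lse hh)).trans (add_le_add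
    (mul_le_mul_of_nonneg_left ?_ (by positivity)) ?_)
  · have hi : ∀ a b, Integrable (fun U => Orth.dl (Orth.lse h) a b U ^ 2) ν := fun a b =>
      hν.integrable ((Orth.continuous_dl (Orth.contDiff_lse hh) a b).pow 2)
    rw [← Finset.sum_congr rfl fun a (_ : a ∈ Finset.univ) =>
      integral_finsetSum Finset.univ fun b _ => hi a b,
      ← integral_finsetSum Finset.univ fun a _ => integrable_finsetSum _ fun b _ => hi a b]
    refine (integral_mono_ae (integrable_finsetSum _ fun a _ => integrable_finsetSum _ fun b _ => hi a b)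
      ((integrable_const (8 * Λ ^ 2 * (N : ℝ) ^ 2)).add (i1.const_mul (8 * N)))
      (hν.fix.mono fun U hU => ?_)).trans_eq (by
        simp only [Pi.add_apply]
        rw [integral_add (integrable_const _) (i1.const_mul _)]
        simp [integral_const_mul])
    have hw := Orth.sum_exp_pos h U
    have hB : ∀ x, ∑ a, ∑ b, Orth.dl (h x) a b U ^ 2 ≤
        8 * Λ ^ 2 * (N : ℝ) ^ 2 + 8 * N * qmax (gradVec blk y) (g, U) := fun x => by
      have e : ∀ c d, Orth.dl (h x) c d U = Orth.dl (Orth.quad 1 (qwt a blk t s y) (spins (π x))) c d U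
          + Orth.dl (fun U => ⟪g, feat blk y U (π x)⟫) c d U := fun c d => by
        have hd := (((Orth.contDiff_quad 1 (qwt a blk t s y) (spins (π x))).differentiable
          one_ne_zero U).hasFDerivAt.add
          ((contDiff_fld blk y g (π x)).differentiable one_ne_zero U).hasFDerivAt).add_const
            (κ x + ⟪z, W x⟫)
        show fderiv ℝ (fun U => expo a blk t s y g (π x) U + (κ x + ⟪z, W x⟫)) U _ = _
        rw [show fderiv ℝ (fun U => expo a blk t s y g (π x) U + (κ x + ⟪z, W x⟫)) U = _ from hd.fderiv]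
        rfl
      calc ∑ c, ∑ d, Orth.dl (h x) c d U ^ 2
          ≤ 2 * ∑ c, ∑ d, Orth.dl (Orth.quad 1 (qwt a blk t s y) (spins (π x))) c d U ^ 2 +
            2 * ∑ c, ∑ d, Orth.dl (fun U => ⟪g, feat blk y U (π x)⟫) c d U ^ 2 := by
            simp only [Finset.mul_sum, ← Finset.sum_add_distrib]
            refine Finset.sum_le_sum fun c _ => Finset.sum_le_sum fun d _ => ?_
            rw [e, ← mul_add]
            exact add_sq_le
        _ ≤ 2 * (4 * (1 : ℝ) ^ 2 * Λ ^ 2 * (∑ j, spins (π x) j ^ 2) ^ 2) +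
            2 * (4 * N * qmax (gradVec blk y) (g, U)) :=
            add_le_add (mul_le_mul_of_nonneg_left (Orth.sum_dl_quad_sq_le 1 hΛ _ hU.1) (by norm_num))
              (mul_le_mul_of_nonneg_left ((sum_dl_fld_sq_le blk y g (π x) hU.1).trans
                (mul_le_mul_of_nonneg_left (le_ciSup (f := fun σ => ∑ c, ⟪g, gradVec blk y U σ c⟫ ^ 2)
                  (Finite.bddAbove_range _) (π x)) (by positivity))) (by norm_num))
        _ = _ := by rw [sum_spins_sq]; ring
    calc ∑ c, ∑ d, Orth.dl (Orth.lse h) c d U ^ 2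
        ≤ ∑ c, ∑ d, (∑ x, Real.exp (h x U) * Orth.dl (h x) c d U ^ 2) / ∑ x, Real.exp (h x U) :=
          Finset.sum_le_sum fun c _ => Finset.sum_le_sum fun d _ => Orth.dl_lse_sq_le hh c d U
      _ = (∑ x, Real.exp (h x U) * ∑ c, ∑ d, Orth.dl (h x) c d U ^ 2) / ∑ x, Real.exp (h x U) := by
          simp only [← Finset.sum_div, Finset.mul_sum]
          congr 1
          rw [Finset.sum_comm (γ := X)]
          exact Finset.sum_congr rfl fun c _ => Finset.sum_comm
      _ ≤ _ := by
          rw [div_le_iff₀ hw, Finset.mul_sum]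
          refine Finset.sum_le_sum fun x _ => ?_
          simp only [Pi.add_apply]
          rw [mul_comm (8 * Λ ^ 2 * (N : ℝ) ^ 2 + _)]
          exact mul_le_mul_of_nonneg_left (hB x) (Real.exp_pos _).le
  · -- flips
    set F : Fin N → (Fin N → Fin N → ℝ) → ℝ := fun c U =>
      ∑ x, gibW (fun x => h x U) x * ⟪g, flipVec blk y U (π x) c⟫ ^ 2
    have hFc : ∀ c, Continuous (F c) := fun c => continuous_finsetSum _ fun x _ =>
      (((hh x).continuous.rexp).div (continuous_finsetSum _ fun x _ => (hh x).continuous.rexp)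
        fun U => (Orth.sum_exp_pos h U).ne').mul
        ((continuous_const.inner (continuous_flipVec blk y (π x) c)).pow 2)
    have hO : ∀ c, Orth.Fix ∅ (Orth.flip1 (N := N) c) := fun c =>
      Orth.diag_fix _ (fun i => by split_ifs <;> norm_num) (by simp)
    have hinv : ∀ (c : Fin N) (U : Fin N → Fin N → ℝ), Orth.mm (Orth.flip1 c) (Orth.mm (Orth.flip1 c) U) = U := fun c U => by
      rw [← Orth.mm_assoc]
      funext i j
      simp only [Orth.mm, Orth.flip1, Equiv.apply_symm_apply, diagonal_mul_diagonal, of_symm_apply,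
        diagonal_mul, of_apply]
      split_ifs <;> ring
    have hd : ∀ x c U, h x U - h x (Orth.mm (Orth.flip1 c) U) = ⟪g, flipVec blk y U (π x) c⟫ :=
      fun x c U => by
        simp only [h, expo, Orth.quad_flip, flipVec, inner_sub_right]
        ring
    have hanti : ∀ x c U, ⟪g, flipVec blk y (Orth.mm (Orth.flip1 c) U) (π x) c⟫ =
        -⟪g, flipVec blk y U (π x) c⟫ := fun x c U => by
      simp only [flipVec, hinv, inner_sub_right]
      ring
    have hpt : ∀ c, ∫ U, (Orth.lse h U - Orth.lse h (Orth.mm (Orth.flip1 c) U)) ^ 2 ∂ν ≤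
        2 * ∫ U, F c U ∂ν := fun c => by
      have hle : ∀ U, (Orth.lse h U - Orth.lse h (Orth.mm (Orth.flip1 c) U)) ^ 2 ≤
          F c U + F c (Orth.mm (Orth.flip1 c) U) := fun U => by
        refine (sq_lsum_sub_le (fun x => h x U) (fun x => h x (Orth.mm (Orth.flip1 c) U))).trans_eq ?_
        simp only [F, hd, hanti, neg_sq]
      have hl := (Orth.contDiff_lse hh).continuous
      refine (integral_mono (hν.integrable (by fun_prop))
        ((hν.integrable (hFc c)).add (hν.integrable ((hFc c).comp (Orth.continuous_mm_right _)))) hle).trans_eq ?_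
      simp only [Pi.add_apply, Function.comp_apply]
      rw [integral_add (hν.integrable (hFc c)) (hν.integrable (F := fun U => F c (Orth.mm _ U))
        ((hFc c).comp (Orth.continuous_mm_right _))), hν.integral_mm (hFc c) (hO c)]
      ring
    calc 1 / (2 * (N : ℝ)) * ∑ e, ∫ U, (Orth.lse h U - Orth.lse h (Orth.mm (Orth.flip1 e) U)) ^ 2 ∂ν
        ≤ 1 / (2 * (N : ℝ)) * ∑ e, 2 * ∫ U, F e U ∂ν :=
          mul_le_mul_of_nonneg_left (Finset.sum_le_sum fun e _ => hpt e) (by positivity)
      _ = 1 / (N : ℝ) * ∫ U, ∑ e, F e U ∂ν := by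
          rw [integral_finsetSum _ fun e _ => hν.integrable (hFc e), ← Finset.mul_sum]
          field_simp
      _ ≤ _ := by
          refine mul_le_mul_of_nonneg_left (integral_mono
            (integrable_finsetSum _ fun e _ => hν.integrable (hFc e)) i2 fun U => ?_) (by positivity)
          simp only [F]
          rw [Finset.sum_comm]
          refine (Finset.sum_le_sum fun x _ => ?_).trans_eq
            (show ∑ x, gibW (fun x => h x U) x * qmax (flipVec blk y) (g, U) = _ by
              rw [← Finset.sum_mul, sum_gibW, one_mul])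
          rw [← Finset.mul_sum]
          exact mul_le_mul_of_nonneg_left (le_ciSup (f := fun σ => ∑ c, ⟪g, flipVec blk y U σ c⟫ ^ 2)
            (Finite.bddAbove_range _) (π x)) (gibW_nonneg _ _)

include hν in
/-- Deviation in the rotation and the Gaussian fields. -/
theorem mad_restLse {Λ : ℝ} (hN : 1 ≤ N) (hS : 0 ≤ S) (hΛ : ∀ c, |qwt a blk t s y c| ≤ Λ)
    (hy : ∀ e : Mon (Fin K) P, y (Sum.inl e) ^ 2 ≤ S ^ 2) {lz : ℝ} (hW : ∀ x, ‖W x‖ ≤ lz) :
    ∫ w, |restLse a blk t s y π κ W w -
        ∫ w', restLse a blk t s y π κ W w' ∂ν.prod ((stdGaussian (GSp K N P)).prod (stdGaussian E))|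
      ∂ν.prod ((stdGaussian (GSp K N P)).prod (stdGaussian E)) ≤
      3 * lz + 3 * (S * Real.sqrt (Fintype.card (CIdx (Fin K) P))) + (8 * Λ * Real.sqrt N +
        20 * (S * Real.sqrt (Fintype.card (CIdx (Fin K) P)) * (K * P) + 1)) := by
  have := hν.prob
  set γg := stdGaussian (GSp K N P)
  set γz := stdGaussian E
  set f := restLse a blk t s y π κ W
  set sc := Real.sqrt (Fintype.card (CIdx (Fin K) P))
  set c := ∫ w', f w' ∂ν.prod (γg.prod γz)
  have hΛ0 : 0 ≤ Λ := (abs_nonneg _).trans (hΛ ⟨0, hN⟩)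
  have hf : Integrable f (ν.prod (γg.prod γz)) := integrable_restLse a blk hν t s y π κ W hΛ hy
  refine (mad_prod hf c).trans (add_le_add ?_ ?_)
  · -- the Gaussian fields
    refine (integral_mono_ae (hf.sub (hf.integral_prod_left.comp_fst _)).abs.integral_prod_left
      (integrable_const (3 * lz + 3 * (S * sc))) ?_).trans_eq (by simp)
    filter_upwards [hν.fix, hf.prod_right_ae] with U hU hfU
    show ∫ w, |f (U, w) - ∫ w', f (U, w') ∂γg.prod γz| ∂γg.prod γz ≤ _
    refine (mad_prod hfU _).trans (add_le_add ?_ ?_)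
    · refine (integral_mono_ae (hfU.sub (hfU.integral_prod_left.comp_fst _)).abs.integral_prod_left
        (integrable_const (3 * lz)) (Filter.Eventually.of_forall fun g => ?_)).trans_eq (by simp)
      show ∫ z, |f (U, g, z) - ∫ z', f (U, g, z') ∂γz| ∂γz ≤ _
      have h := (gauss_lse_mad (fun x => expo a blk t s y g (π x) U + κ x) W hW).2
      simpa only [f, restLse, lsum, add_assoc] using h
    · rw [integral_prod _ hfU]
      refine (mad_mean (μ := γg) (ν := γz) hfU).trans ?_
      refine (integral_mono_ae ?_ (integrable_const (3 * (S * sc)))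
        (Filter.Eventually.of_forall fun z => ?_)).trans_eq (by simp)
      · exact (hfU.sub (hfU.integral_prod_right.comp_snd γg)).abs.integral_prod_right
      have h := (gauss_lse_mad (fun x => Orth.quad 1 (qwt a blk t s y) (spins (π x)) U +
        (κ x + ⟪z, W x⟫)) (fun x => feat blk y U (π x)) (l := S * sc) fun x => ?_).2
      · simpa only [f, restLse, lsum, expo, add_right_comm] using h
      · rw [← Real.sqrt_sq hS, ← Real.sqrt_mul (sq_nonneg S), mul_comm]
        exact Real.le_sqrt_of_sq_le (norm_feat_sq_le blk hU.1 (π x) y hy)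
  · -- the rotation
    set Q := (S * sc * (K * P) + 1) ^ 2 with hQdef
    have hQ1 : 1 ≤ Q := one_le_pow₀ (le_add_of_nonneg_left (by positivity))
    have hN0 : (0 : ℝ) < N := by exact_mod_cast hN
    have hb : (Fintype.card (CIdx (Fin K) P) : ℝ) * S ^ 2 * (K * P : ℝ) ^ 2 ≤ Q := by
      rw [hQdef, ← Real.sq_sqrt (Nat.cast_nonneg (Fintype.card (CIdx (Fin K) P))), ← mul_pow, ← mul_pow,
        mul_comm (Real.sqrt _) S]
      exact pow_le_pow_left₀ (by positivity) (le_add_of_nonneg_right zero_le_one) 2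
    obtain ⟨i1, b1⟩ := qmax_facts hν (continuous_gradVec blk y) (div_pos (zero_lt_one.trans_le hQ1) hN0)
      fun U hU σ h => (gradVec_bound blk hU σ y hy h).trans
        (mul_le_mul_of_nonneg_right (div_le_div_of_nonneg_right hb hN0.le)
          (Finset.sum_nonneg fun c _ => sq_nonneg _))
    obtain ⟨i2, b2⟩ := qmax_facts hν (continuous_flipVec blk y) (M := 4 * Q) (by positivity)
      fun U hU σ h => ((flipVec_bound blk hU σ y hy h).trans_eq
        (show _ = 4 * ((Fintype.card (CIdx (Fin K) P) : ℝ) * S ^ 2 * (K * P : ℝ) ^ 2) * ∑ c, h c ^ 2 by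
          ring)).trans
        (mul_le_mul_of_nonneg_right (mul_le_mul_of_nonneg_left hb (by norm_num : (0 : ℝ) ≤ 4))
          (Finset.sum_nonneg fun c _ => sq_nonneg _))
    set aU := 8 * Λ * Real.sqrt N + 20 * (S * sc * (K * P) + 1)
    have ha : 0 < aU := by positivity
    set Φ := fun g => Real.pi ^ 2 / (2 * (N : ℝ)) * (8 * Λ ^ 2 * (N : ℝ) ^ 2 +
          8 * N * ∫ U, qmax (gradVec blk y) (g, U) ∂ν) +
        1 / (N : ℝ) * ∫ U, qmax (flipVec blk y) (g, U) ∂ν
    have iΦ : Integrable Φ γg := (((integrable_const _).add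
      (i1.integral_prod_left.const_mul _)).const_mul _).add (i2.integral_prod_left.const_mul _)
    have bΦ : ∫ g, Φ g ∂γg ≤ aU ^ 2 := by
      rw [integral_prod _ i1] at b1
      rw [integral_prod _ i2] at b2
      have j1 : Integrable (fun g => 8 * (N : ℝ) * ∫ U, qmax (gradVec blk y) (g, U) ∂ν) γg :=
        i1.integral_prod_left.const_mul _
      simp only [Φ]
      have jA : Integrable (fun g => Real.pi ^ 2 / (2 * (N : ℝ)) * (8 * Λ ^ 2 * (N : ℝ) ^ 2 +
          8 * N * ∫ U, qmax (gradVec blk y) (g, U) ∂ν)) γg :=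
        ((integrable_const _).add j1).const_mul _
      rw [integral_add jA (i2.integral_prod_left.const_mul _),
        integral_const_mul, integral_add (integrable_const _) j1]
      simp only [integral_const_mul]
      simp only [integral_const, probReal_univ, one_smul]
      have hpi : Real.pi ^ 2 ≤ 10 := by nlinarith [Real.pi_lt_d2, Real.pi_pos]
      calc _ ≤ Real.pi ^ 2 / (2 * (N : ℝ)) * (8 * Λ ^ 2 * (N : ℝ) ^ 2 + 8 * N * (8 * (Q / N) * N)) +
            1 / (N : ℝ) * (8 * (4 * Q) * N) := by gcongr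
        _ = Real.pi ^ 2 * (4 * Λ ^ 2 * N + 32 * Q) + 32 * Q := by field_simp; ring
        _ ≤ 10 * (4 * Λ ^ 2 * N + 32 * Q) + 32 * Q := by gcongr
        _ ≤ aU ^ 2 := by
          have h1 : (Λ * Real.sqrt N) ^ 2 = Λ ^ 2 * N := by rw [mul_pow, Real.sq_sqrt hN0.le]
          have h2 : 0 ≤ Λ * Real.sqrt N * (S * sc * (K * P) + 1) := by positivity
          nlinarith
    rw [show c = ∫ U', ∫ w, f (U', w) ∂γg.prod γz ∂ν from integral_prod _ hf]
    refine (mad_mean hf).trans ((integral_mono_ae ?_ (((iΦ.div_const (2 * aU)).add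
      (integrable_const (aU / 2))).comp_fst γz) ?_).trans ?_)
    · exact (hf.sub (hf.integral_prod_right.comp_snd ν)).abs.integral_prod_right
    · refine Filter.Eventually.of_forall fun w => ?_
      set F := fun U => f (U, w)
      have hFc : Continuous F := (continuous_restLse a blk t s y π κ W).comp
        (continuous_id.prodMk continuous_const)
      set cF := ∫ U', F U' ∂ν
      have hv : ∫ U, (F U - cF) ^ 2 ∂ν ≤ Φ w.1 := variance_restLse a blk hν t s y π κ W hΛ w.1 w.2
      have hF1 : Continuous fun U => (F U - cF) ^ 2 := (hFc.sub continuous_const).pow 2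
      refine (integral_mono (hν.integrable (hFc.sub continuous_const).abs)
        (((hν.integrable hF1).div_const (2 * aU)).add (integrable_const (aU / 2))) fun U => ?_).trans ?_
      · show |F U - cF| ≤ (F U - cF) ^ 2 / (2 * aU) + aU / 2
        rw [div_add_div _ _ (by positivity) two_ne_zero, le_div_iff₀ (by positivity)]
        nlinarith [mul_nonneg ha.le (sq_nonneg (|F U - cF| - aU)), sq_abs (F U - cF)]
      · simp only [Pi.add_apply]
        rw [integral_add ((hν.integrable hF1).div_const _) (integrable_const _), integral_div]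
        simp only [integral_const, probReal_univ, one_smul]
        gcongr
    · simp only [Pi.add_apply]
      rw [integral_fun_fst (fun g => (Φ g / (2 * aU) + aU / 2))]
      simp only [probReal_univ, one_smul]
      rw [integral_add (iΦ.div_const _) (integrable_const _), integral_div]
      simp only [integral_const, probReal_univ, one_smul]
      have : (∫ g, Φ g ∂γg) / (2 * aU) ≤ aU / 2 := by
        rw [div_le_iff₀ (by positivity)]
        nlinarith
      linarith

end Vale.Agent.P166F.Dev
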